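import Vale.Agent.P158.Power.Tilt
import Vale.Agent.P158.Tube.Event

/-! A block of a tube that, with probability bounded below, no geodesic crosses. -/

noncomputable section

namespace Vale.Agent.P158.Power

open Finset MeasureTheory ProbabilityTheory Real Vale.Agent.P158.Tube
open scoped Classical ENNReal

/-- Vertical translation. -/
def shift (D : ℤ) (v : V) : V := (v.1, v.2 + D)

variable (g : ℤ → ℤ) (x₀ : ℤ) (L w : ℕ)

/-- The lattice edges of a block. -/
def edges : Finset (Sym2 V) :=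
  ((tube g x₀ L w ×ˢ (Finset.univ : Finset (Fin 4))).image fun q => s(q.1, q.1 + dir q.2)).filter
    fun e => e ∈ inner g x₀ L w

/-- The translated profile. -/
def upper : ℤ → ℤ := fun x => g x + (2 * w + 1 : ℕ)

/-- The two connecting columns. -/
def cols : Finset (Sym2 V) :=
  column (fun x => g x + w) (2 * w) x₀ ∪ column (fun x => g x + w) (2 * w) (x₀ + L)

/-- A crossing of the block inside the tube. -/
def Crossing (p : ℕ → V) (m : ℕ) : Prop :=
  (p 0).1 = x₀ ∧ (p m).1 = x₀ + L ∧ IsWalk p m ∧ Set.InjOn p (Set.Iic m) ∧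
    ∀ k < m, s(p k, p (k + 1)) ∈ edges g x₀ L w

/-- There is a crossing of cost at most `s`. -/
def low (s : ℝ) : Set (Sym2 V → ℝ) := {ω | ∃ p m, Crossing g x₀ L w p m ∧ cost ω p m ≤ s}

/-- The cost of the connecting columns is controlled. -/
def conn (α Bd : ℝ) : Set (Sym2 V → ℝ) :=
  {ω | ∑ e ∈ cols g x₀ L w, max (ω e) 0 ^ α ≤ Bd}

/-- The good event. -/
def nice (α Bd h : ℝ) : Set (Sym2 V → ℝ) :=
  conn g x₀ L w α Bd ∩ ((⋂ k : ℕ, (low g x₀ L w (k * h))ᶜ) ∪
    ⋃ k : ℕ, low (upper g w) x₀ L w (k * h - 2 * h) ∩ (low g x₀ L w (k * h - h))ᶜ)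

/-- The edges on which the good event depends. -/
def nsupp : Finset (Sym2 V) :=
  edges g x₀ L w ∪ edges (upper g w) x₀ L w ∪ cols g x₀ L w

variable {g x₀ L w}

theorem card_edges_le : (edges g x₀ L w).card ≤ 4 * ((L + 1) * (2 * w + 1)) := by
  refine (Finset.card_filter_le _ _).trans (Finset.card_image_le.trans ?_)
  rw [Finset.card_product, Finset.card_univ, Fintype.card_fin, mul_comm]
  exact Nat.mul_le_mul_left _ card_tube_le

theorem card_cols_le : (cols g x₀ L w).card ≤ 2 * (4 * w + 1) := by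
  refine (Finset.card_union_le _ _).trans ?_
  have h := fun x => card_column_le (g := fun x => g x + w) (w := 2 * w) x
  have := h x₀
  have := h (x₀ + L)
  omega

theorem mem_edges {u v : V} (hu : u ∈ tube g x₀ L w) (ha : Adj u v)
    (hi : s(u, v) ∈ inner g x₀ L w) : s(u, v) ∈ edges g x₀ L w := by
  obtain ⟨i, rfl⟩ := exists_dir ha
  exact Finset.mem_filter.2 ⟨Finset.mem_image.2 ⟨(u, i), by simp [hu], rfl⟩, hi⟩

theorem edges_tube {e : Sym2 V} (he : e ∈ edges g x₀ L w) {v : V} (hv : v ∈ e) :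
    v ∈ tube g x₀ L w :=
  Finset.mem_sym2_iff.1 (Finset.mem_filter.1 (Finset.mem_filter.1 he).2).1 v hv

theorem nsupp_fst {e : Sym2 V} (he : e ∈ nsupp g x₀ L w) {v : V} (hv : v ∈ e) :
    x₀ ≤ v.1 ∧ v.1 ≤ x₀ + L := by
  rcases Finset.mem_union.1 he with h | h
  · rcases Finset.mem_union.1 h with h | h <;>
      exact ⟨(mem_tube.1 (edges_tube h hv)).1, (mem_tube.1 (edges_tube h hv)).2.1⟩
  · rcases Finset.mem_union.1 h with h | h <;> obtain ⟨k, -, rfl⟩ := Finset.mem_image.1 h <;>
      rcases Sym2.mem_iff.1 hv with rfl | rfl <;> simp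

theorem Crossing.congr {p q : ℕ → V} {m : ℕ} (h : Crossing g x₀ L w p m)
    (e : ∀ k ≤ m, q k = p k) : Crossing g x₀ L w q m := by
  obtain ⟨h0, hm, hw, hi, he⟩ := h
  refine ⟨by rw [e 0 (Nat.zero_le _), h0], by rw [e m le_rfl, hm], fun k hk => ?_, ?_, fun k hk => ?_⟩
  · rw [e k hk.le, e (k + 1) hk]; exact hw k hk
  · exact hi.congr fun k hk => (e k hk).symm
  · rw [e k hk.le, e (k + 1) hk]; exact he k hk

theorem low_eq (s : ℝ) : low g x₀ L w s = ⋃ (m : ℕ) (v : V) (d : Fin m → Fin 4),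
    {ω | Crossing g x₀ L w (walkOf v d) m ∧ cost ω (walkOf v d) m ≤ s} := by
  ext ω
  simp only [low, Set.mem_iUnion, Set.mem_setOf_eq]
  constructor
  · rintro ⟨p, m, hp, hc⟩
    obtain ⟨d, hd⟩ := exists_walkOf hp.2.2.1
    refine ⟨m, p 0, d, hp.congr hd, le_trans (le_of_eq ?_) hc⟩
    exact Finset.sum_congr rfl fun k hk => by
      rw [hd k (Finset.mem_range.1 hk).le, hd (k + 1) (Finset.mem_range.1 hk)]
  · rintro ⟨m, v, d, h⟩
    exact ⟨_, m, h⟩

theorem measurableSet_low (s : ℝ) : MeasurableSet (low g x₀ L w s) := by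
  rw [low_eq]
  refine MeasurableSet.iUnion fun m => MeasurableSet.iUnion fun v => MeasurableSet.iUnion fun d => ?_
  rw [Set.setOf_and]
  exact (MeasurableSet.const _).inter
    (measurableSet_le (Finset.measurable_sum _ fun k _ => measurable_pi_apply _) measurable_const)

theorem determined_low (s : ℝ) : Determined (edges g x₀ L w) (low g x₀ L w s) := by
  intro ω ω' h
  refine exists_congr fun p => exists_congr fun m => and_congr_right fun hp => ?_
  have : cost ω p m = cost ω' p m :=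
    Finset.sum_congr rfl fun k hk => h _ (hp.2.2.2.2 k (Finset.mem_range.1 hk))
  rw [this]

theorem low_mono {s t : ℝ} (h : s ≤ t) : low g x₀ L w s ⊆ low g x₀ L w t :=
  fun _ ⟨p, m, hp, hc⟩ => ⟨p, m, hp, hc.trans h⟩

theorem measurableSet_conn (α Bd : ℝ) : MeasurableSet (conn g x₀ L w α Bd) :=
  measurableSet_le (Finset.measurable_sum _ fun e _ =>
    ((measurable_pi_apply e).max measurable_const).pow_const α) measurable_const

theorem measurableSet_nice (α Bd h : ℝ) : MeasurableSet (nice g x₀ L w α Bd h) :=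
  (measurableSet_conn α Bd).inter ((MeasurableSet.iInter fun _ => (measurableSet_low _).compl).union
    (MeasurableSet.iUnion fun _ => (measurableSet_low _).inter (measurableSet_low _).compl))

theorem determined_nice (α Bd h : ℝ) :
    Determined (nsupp g x₀ L w) (nice g x₀ L w α Bd h) := by
  intro ω ω' e
  have e1 : ∀ s, (ω ∈ low g x₀ L w s ↔ ω' ∈ low g x₀ L w s) := fun s =>
    determined_low s ω ω' fun i hi => e i (by simp [nsupp, hi])
  have e2 : ∀ s, (ω ∈ low (upper g w) x₀ L w s ↔ ω' ∈ low (upper g w) x₀ L w s) := fun s =>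
    determined_low s ω ω' fun i hi => e i (by simp [nsupp, hi])
  have e3 : ∑ i ∈ cols g x₀ L w, max (ω i) 0 ^ α = ∑ i ∈ cols g x₀ L w, max (ω' i) 0 ^ α :=
    Finset.sum_congr rfl fun i hi => by rw [e i (by simp [nsupp, hi])]
  simp [nice, conn, e1, e2, e3]

theorem crossing_upper {p : ℕ → V} {m : ℕ} :
    Crossing (upper g w) x₀ L w (fun k => shift (2 * w + 1 : ℕ) (p k)) m ↔
      Crossing g x₀ L w p m := by
  set D : ℤ := ((2 * w + 1 : ℕ) : ℤ)
  have hinj : Function.Injective (shift D) := fun a b h => by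
    simp [shift] at h; exact Prod.ext h.1 h.2
  have hadj : ∀ a b, Adj (shift D a) (shift D b) ↔ Adj a b := fun a b => by simp [Adj, shift]
  have htube : ∀ v, shift D v ∈ tube (upper g w) x₀ L w ↔ v ∈ tube g x₀ L w := fun v => by
    simp [mem_tube, shift, upper, D]
  have hinner : ∀ a b, s(shift D a, shift D b) ∈ inner (upper g w) x₀ L w ↔
      s(a, b) ∈ inner g x₀ L w := fun a b => by
    simp only [Tube.inner, Finset.mem_filter, Finset.mk_mem_sym2_iff, htube, Sym2.forall_mem_pair]
    rfl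
  have hedge : ∀ a b, Adj a b → (s(shift D a, shift D b) ∈ edges (upper g w) x₀ L w ↔
      s(a, b) ∈ edges g x₀ L w) := fun a b h => by
    constructor <;> intro he
    · refine mem_edges ((htube a).1 (edges_tube he (Sym2.mem_mk_left _ _))) h ?_
      exact (hinner a b).1 (Finset.mem_filter.1 he).2
    · refine mem_edges ((htube a).2 (edges_tube he (Sym2.mem_mk_left _ _))) ((hadj a b).2 h) ?_
      exact (hinner a b).2 (Finset.mem_filter.1 he).2
  constructor
  · rintro ⟨h0, hm, hw, hi, he⟩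
    exact ⟨h0, hm, fun k hk => (hadj _ _).1 (hw k hk), fun a ha b hb h => hi ha hb (congrArg (shift D) h),
      fun k hk => (hedge _ _ ((hadj _ _).1 (hw k hk))).1 (he k hk)⟩
  · rintro ⟨h0, hm, hw, hi, he⟩
    exact ⟨h0, hm, fun k hk => (hadj _ _).2 (hw k hk), fun a ha b hb h => hi ha hb (hinj h),
      fun k hk => (hedge _ _ (hw k hk)).2 (he k hk)⟩

variable (G : Measure ℝ) [IsProbabilityMeasure G]

theorem law_low_upper (s : ℝ) :
    law G (low (upper g w) x₀ L w s) = law G (low g x₀ L w s) := by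
  set D : ℤ := ((2 * w + 1 : ℕ) : ℤ)
  let F : (Sym2 V → ℝ) → Sym2 V → ℝ := fun ω e => ω (Sym2.map (shift D) e)
  have hinj : Function.Injective (shift D) := fun a b h => by
    simp [shift] at h; exact Prod.ext h.1 h.2
  have hmap : (law G).map F = law G :=
    Measure.map_infinitePi_infinitePi_of_inj (Sym2.map.injective hinj)
  have e : low (upper g w) x₀ L w s = F ⁻¹' low g x₀ L w s := by
    ext ω
    constructor
    · rintro ⟨q, m, hq, hc⟩
      refine ⟨fun k => shift (-D) (q k), m, ?_, le_trans (le_of_eq ?_) hc⟩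
      · rw [← crossing_upper]
        convert hq using 1
        funext k
        exact Prod.ext rfl (by simp only [shift, D]; ring)
      · exact Finset.sum_congr rfl fun k _ => by simp [F, shift]
    · rintro ⟨p, m, hp, hc⟩
      exact ⟨_, m, crossing_upper.2 hp, hc⟩
  calc law G (low (upper g w) x₀ L w s) = law G (F ⁻¹' low g x₀ L w s) := by rw [e]
    _ = (law G).map F (low g x₀ L w s) :=
      (Measure.map_apply (measurable_pi_lambda _ fun _ => measurable_pi_apply _)
        (measurableSet_low s)).symm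
    _ = _ := by rw [hmap]

theorem law_eq_pi {S : Finset (Sym2 V)} {A : Set (Sym2 V → ℝ)} (hA : MeasurableSet A)
    (dA : Determined S A) :
    law G A = (Measure.pi fun _ : S => G) (extend S ⁻¹' A) := by
  rw [← Measure.infinitePi_map_restrict (μ := fun _ : Sym2 V => G) (I := S),
    Measure.map_apply (Finset.measurable_restrict S) (measurable_extend S hA)]
  conv_lhs => rw [dA.eq_preimage]
  rfl

variable {G}

theorem size_bound8 {L : ℕ} (hL : 40 ≤ L) :
    8 * (((L + 1) * (2 * L + 1) + 1) * ((L + 1) * (2 * L + 1))) ≤ 2 ^ L := by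
  induction L, hL using Nat.le_induction with
  | base => norm_num
  | succ L hL ih =>
    rw [pow_succ]
    have h : ((L + 1 + 1) * (2 * (L + 1) + 1) + 1) * ((L + 1 + 1) * (2 * (L + 1) + 1)) ≤
        2 * (((L + 1) * (2 * L + 1) + 1) * ((L + 1) * (2 * L + 1))) := by
      obtain ⟨i, rfl⟩ := Nat.exists_eq_add_of_le hL
      ring_nf
      nlinarith
    omega

theorem low_lowered_prob {a b ε h : ℝ} {t : ℕ} (hab : b < a) (hb : 0 < G (Set.Iic b))
    (h0 : 0 ≤ ε) (h1 : ε ≤ 1) (hwL : w ≤ L) (hL : 40 ≤ L)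
    (hq : G (Set.Iic a) ≤ (1 / 16) ^ 2) (ht : (t : ℝ) * log 2 + 2 ≤ ε * (L / 2 : ℕ) / 2)
    (hh : 2 * h ≤ (a - b) * t) {s : ℝ} (hs : (1 / 2 : ℝ) ≤ (law G).real (low g x₀ L w s)) :
    1 / (16 * exp (2 * ε ^ 2 / G.real (Set.Iic b)) ^ (edges g x₀ L w).card) ≤
      (law G).real (low g x₀ L w (s - 2 * h)) := by
  set R := edges g x₀ L w
  set T := tube g x₀ L w
  set A₀ := low g x₀ L w s ∩ (bad R T L a)ᶜ
  have hA₀ : MeasurableSet A₀ := (measurableSet_low s).inter (measurableSet_bad _ _ _ _).compl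
  have dA₀ : Determined R A₀ := (determined_low s).inter (determined_bad _ _ _ _).compl
  have hbad : (law G).real (bad R T L a) ≤ 1 / 8 := by
    refine ENNReal.toReal_le_of_le_ofReal (by norm_num) ((law_bad_le G _ _ _ _ hq).trans ?_)
    set c := T.card
    have hc : c ≤ (L + 1) * (2 * L + 1) := card_tube_le.trans (by gcongr)
    have h2 : 8 * ((c + 1) * c) ≤ 2 ^ L := le_trans (by gcongr) (size_bound8 hL)
    have h3 : (8 : ℝ) * (((c + 1 : ℕ) : ℝ) * c) ≤ 2 ^ L := by exact_mod_cast h2
    rw [show (1 / 2 : ℝ≥0∞) = ENNReal.ofReal (1 / 2) by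
        rw [ENNReal.ofReal_div_of_pos two_pos, ENNReal.ofReal_one, ENNReal.ofReal_ofNat],
      ← ENNReal.ofReal_pow (by norm_num), ← ENNReal.ofReal_natCast, ← ENNReal.ofReal_natCast,
      ← ENNReal.ofReal_mul (by positivity), ← ENNReal.ofReal_mul (by positivity)]
    refine ENNReal.ofReal_le_ofReal ?_
    rw [div_pow, one_pow, mul_one_div, div_le_iff₀ (by positivity)]
    linarith
  have hP : (3 / 8 : ℝ) ≤ (law G).real A₀ := by
    have : (law G).real (low g x₀ L w s) ≤ (law G).real A₀ + (law G).real (bad R T L a) :=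
      (measureReal_mono (fun ω hω => by
        by_cases hb' : ω ∈ bad R T L a
        · exact Or.inr hb'
        · exact Or.inl ⟨hω, hb'⟩)).trans (measureReal_union_le _ _)
    linarith
  have key := tilt (G := G) (ι := R) (M := L / 2) (h := t) hab hb h0 h1 ht
    (A₀ := extend R ⁻¹' A₀) (A := extend R ⁻¹' low g x₀ L w (s - 2 * h))
    (measurable_extend R hA₀) (measurable_extend R (measurableSet_low _))
    (by rw [measureReal_def, ← law_eq_pi G hA₀ dA₀]; exact hP) ?_
  · rw [Fintype.card_coe, measureReal_def,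
      measureReal_def, ← law_eq_pi G (S := R) (measurableSet_low _) (determined_low _),
      ← measureReal_def] at key
    exact key
  rintro x ⟨⟨p, m, hp, hc⟩, hnb⟩
  set ω := extend R x with hω
  have hinjE := injOn_edge hp.2.2.2.1
  have hl1 := l1_le hp.2.2.1
  rw [hp.1, hp.2.1, add_sub_cancel_left, Nat.abs_cast] at hl1
  have hLm : L ≤ m := by
    zify; linarith [abs_nonneg ((p m).2 - (p 0).2)]
  have hT : ∀ k ≤ m, p k ∈ T := fun k hk => by
    rcases hk.eq_or_lt with rfl | h
    · have := edges_tube (hp.2.2.2.2 (k - 1) (by omega)) (Sym2.mem_mk_right _ _)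
      rwa [Nat.sub_add_cancel (by omega : 1 ≤ k)] at this
    · exact edges_tube (hp.2.2.2.2 k h) (Sym2.mem_mk_left _ _)
  have hmT : m ≤ T.card := by
    have h := Finset.card_le_card_of_injOn p
      (fun k hk => hT k (Finset.mem_Iic.1 hk)) (s := Finset.Iic m) (by simpa using hp.2.2.2.1)
    simp at h
    omega
  set S := (range m).filter fun k => ω s(p k, p (k + 1)) ≤ a with hS
  have hlow : 2 * S.card < m := by
    by_contra hcon
    push Not at hcon
    obtain ⟨d, hd⟩ := exists_walkOf hp.2.2.1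
    refine hnb ?_
    simp only [bad, Set.mem_iUnion, Set.mem_setOf_eq]
    refine ⟨m, Finset.mem_Icc.2 ⟨hLm, hmT⟩, p 0, hT 0 (Nat.zero_le _), d, S,
      Finset.mem_powerset.2 (Finset.filter_subset _ _), ⟨hcon, ?_, fun k hk => ?_⟩, fun k hk => ?_⟩
    · exact hp.2.2.2.1.congr fun k hk => (hd k hk).symm
    · rw [hd k hk.le, hd (k + 1) hk]; exact hp.2.2.2.2 k hk
    · obtain ⟨hk1, hk2⟩ := Finset.mem_filter.1 hk
      rw [Finset.mem_range] at hk1
      rwa [hd k hk1.le, hd (k + 1) hk1]
  let ee : {k // k ∈ range m} → R := fun k =>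
    ⟨s(p k, p (k + 1)), hp.2.2.2.2 k (Finset.mem_range.1 k.2)⟩
  have hee : Function.Injective ee := fun i j h =>
    Subtype.ext (hinjE (Finset.mem_range.1 i.2) (Finset.mem_range.1 j.2) (Subtype.ext_iff.1 h))
  set K := (range m).attach.filter fun k => a < ω s(p k.1, p (k.1 + 1))
  have hK : S.card + K.card = m := by
    have h1 : K.card = ((range m).filter fun k => a < ω s(p k, p (k + 1))).card := by
      rw [← Finset.card_map (Function.Embedding.subtype _)]
      congr 1; ext k; simp [K, and_comm]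
    have h2 := Finset.card_filter_add_card_filter_not (s := range m)
      (fun k => ω s(p k, p (k + 1)) ≤ a)
    simp only [not_le, Finset.card_range] at h2
    have h3 : S.card = ((range m).filter fun k => ω s(p k, p (k + 1)) ≤ a).card := rfl
    omega
  refine ⟨K.image ee, ?_, ?_, fun y hy => ?_⟩
  · rw [Finset.card_image_of_injective _ hee]; omega
  · intro i hi
    obtain ⟨k, hk, rfl⟩ := Finset.mem_image.1 hi
    have := (Finset.mem_filter.1 hk).2
    have hk' : s(p k.1, p (k.1 + 1)) ∈ R := hp.2.2.2.2 k (Finset.mem_range.1 k.2)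
    simpa [ω, Tube.extend, ee, hk'] using this
  · refine ⟨p, m, hp, ?_⟩
    set ω' := extend R fun i => lower a b (x i, y i) with hω'
    rw [Finset.filter_image, Finset.card_image_of_injective _ hee] at hy
    have hval : ∀ k : {k // k ∈ range m},
        ω' s(p k.1, p (k.1 + 1)) + (if k ∈ K ∧ y (ee k) ≤ b then a - b else 0) ≤
          ω s(p k.1, p (k.1 + 1)) := fun k => by
      have hk : s(p k.1, p (k.1 + 1)) ∈ R := hp.2.2.2.2 k (Finset.mem_range.1 k.2)
      have e1 : ω s(p k.1, p (k.1 + 1)) = x (ee k) := by simp [ω, Tube.extend, ee, hk, R]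
      have e2 : ω' s(p k.1, p (k.1 + 1)) = lower a b (x (ee k), y (ee k)) := by
        simp [ω', Tube.extend, ee, hk, R]
      rw [e1, e2]
      by_cases hx : a < x (ee k)
      · have : k ∈ K := Finset.mem_filter.2 ⟨Finset.mem_attach _ _, by rw [e1]; exact hx⟩
        by_cases hy' : y (ee k) ≤ b
        · simp only [lower, hx, hy', this, and_self, if_true]; linarith
        · simp [lower, hy']
      · have : k ∉ K := fun h => hx (by rw [← e1]; exact (Finset.mem_filter.1 h).2)
        simp [lower, hx, this]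
    have hsum := Finset.sum_le_sum fun k (_ : k ∈ (range m).attach) => hval k
    rw [Finset.sum_add_distrib, Finset.sum_attach (range m) (fun k => ω' s(p k, p (k + 1))),
      Finset.sum_attach (range m) (fun k => ω s(p k, p (k + 1))), ← Finset.sum_filter,
      Finset.sum_const, nsmul_eq_mul] at hsum
    have hy2 : (t : ℝ) ≤ (((range m).attach.filter fun k => k ∈ K ∧ y (ee k) ≤ b).card : ℝ) := by
      refine Nat.cast_le.2 (hy.trans (Finset.card_le_card fun k hk => ?_))
      obtain ⟨h1, h2⟩ := Finset.mem_filter.1 hk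
      exact Finset.mem_filter.2 ⟨Finset.mem_attach _ _, h1, h2⟩
    have hmul := mul_le_mul_of_nonneg_left hy2 (by linarith : (0 : ℝ) ≤ a - b)
    simp only [cost] at hc ⊢
    nlinarith

theorem law_nice_ge {a b ε α Bd h : ℝ} {t : ℕ} (hab : b < a) (hb : 0 < G (Set.Iic b))
    (h0 : 0 ≤ ε) (h1 : ε ≤ 1) (hwL : w ≤ L) (hL : 40 ≤ L)
    (hq : G (Set.Iic a) ≤ (1 / 16) ^ 2) (ht : (t : ℝ) * log 2 + 2 ≤ ε * (L / 2 : ℕ) / 2)
    (hh : 2 * h ≤ (a - b) * t) (hpos : 0 < h) (hG : G (Set.Iio 0) = 0) {η : ℝ} (hη : 0 < η)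
    (hexp : η * (32 * exp (2 * ε ^ 2 / G.real (Set.Iic b)) ^ (edges g x₀ L w).card) ≤ 1)
    (hBd : 0 < Bd) (hint : ∫⁻ x, ENNReal.ofReal (max x 0 ^ α) ∂G ≠ ∞)
    (hB : 2 * (2 * (4 * w + 1) : ℕ) * (∫⁻ x, ENNReal.ofReal (max x 0 ^ α) ∂G).toReal ≤ η * Bd) :
    η / 2 ≤ (law G).real (nice g x₀ L w α Bd h) := by
  have hη1 : η ≤ 1 / 32 := by
    have : (1 : ℝ) ≤ exp (2 * ε ^ 2 / G.real (Set.Iic b)) ^ (edges g x₀ L w).card :=
      one_le_pow₀ (one_le_exp (by positivity))
    nlinarith
  set E := (⋂ k : ℕ, (low g x₀ L w (k * h))ᶜ) ∪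
    ⋃ k : ℕ, low (upper g w) x₀ L w (k * h - 2 * h) ∩ (low g x₀ L w (k * h - h))ᶜ
  have hconn : (law G).real (conn g x₀ L w α Bd)ᶜ ≤ η / 2 := by
    refine ENNReal.toReal_le_of_le_ofReal (by linarith) ?_
    have hm : Measurable fun ω : Sym2 V → ℝ =>
        ∑ e ∈ cols g x₀ L w, ENNReal.ofReal (max (ω e) 0 ^ α) :=
      Finset.measurable_sum _ fun e _ => ENNReal.measurable_ofReal.comp
        (((measurable_pi_apply e).max measurable_const).pow_const α)
    have hi : ∫⁻ ω, ∑ e ∈ cols g x₀ L w, ENNReal.ofReal (max (ω e) 0 ^ α) ∂law G =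
        (cols g x₀ L w).card * ∫⁻ x, ENNReal.ofReal (max x 0 ^ α) ∂G := by
      rw [lintegral_finsetSum (f := fun e (ω : Sym2 V → ℝ) => ENNReal.ofReal (max (ω e) 0 ^ α)) _
        fun e _ => ENNReal.measurable_ofReal.comp
          (((measurable_pi_apply e).max measurable_const).pow_const α)]
      have : ∀ e : Sym2 V, ∫⁻ ω, ENNReal.ofReal (max (ω e) 0 ^ α) ∂law G =
          ∫⁻ x, ENNReal.ofReal (max x 0 ^ α) ∂G := fun e => by
        rw [← lintegral_map (μ := law G) (f := fun x => ENNReal.ofReal (max x 0 ^ α)) (g := fun ω => ω e)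
          (ENNReal.measurable_ofReal.comp ((measurable_id.max measurable_const).pow_const α))
          (measurable_pi_apply e), (measurePreserving_eval_infinitePi (fun _ : Sym2 V => G) e).map_eq]
      simp only [this, Finset.sum_const, nsmul_eq_mul]
    have hmk := (mul_meas_ge_le_lintegral (μ := law G) hm (ENNReal.ofReal Bd)).trans hi.le
    have hsub : (conn g x₀ L w α Bd)ᶜ ⊆
        {ω | ENNReal.ofReal Bd ≤ ∑ e ∈ cols g x₀ L w, ENNReal.ofReal (max (ω e) 0 ^ α)} :=
      fun ω hω => by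
        simp only [conn, Set.mem_compl_iff, Set.mem_setOf_eq, not_le] at hω
        simp only [Set.mem_setOf_eq]
        rw [← ENNReal.ofReal_sum_of_nonneg fun e _ => by positivity]
        exact ENNReal.ofReal_le_ofReal hω.le
    rw [mul_comm] at hmk
    refine (measure_mono hsub).trans
      (((ENNReal.le_div_iff_mul_le (Or.inl (by simp [hBd])) (Or.inl ENNReal.ofReal_ne_top)).2
        hmk).trans ?_)
    rw [← ENNReal.ofReal_toReal hint, ← ENNReal.ofReal_natCast,
      ← ENNReal.ofReal_mul (by positivity), ← ENNReal.ofReal_div_of_pos hBd]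
    refine ENNReal.ofReal_le_ofReal ?_
    rw [div_le_iff₀ hBd]
    have hc : ((cols g x₀ L w).card : ℝ) ≤ ((2 * (4 * w + 1) : ℕ) : ℝ) := by
      exact_mod_cast card_cols_le
    have := mul_le_mul_of_nonneg_right hc
      (ENNReal.toReal_nonneg (a := ∫⁻ x, ENNReal.ofReal (max x 0 ^ α) ∂G))
    nlinarith
  have hE : η ≤ (law G).real E := by
    by_cases hex : ∃ k : ℕ, (1 / 2 : ℝ) ≤ (law G).real (low g x₀ L w (k * h))
    · set k := Nat.find hex with hk
      have hk1 : (1 / 2 : ℝ) ≤ (law G).real (low g x₀ L w (k * h)) := Nat.find_spec hex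
      have hk2 : (law G).real (low g x₀ L w (k * h - h)) < 1 / 2 := by
        rcases Nat.eq_zero_or_pos k with h' | h'
        · have hnull : law G (low g x₀ L w ((k : ℝ) * h - h)) = 0 := by
            refine measure_mono_null (t := ⋃ e : Sym2 V, {ω | ω e < 0}) (fun ω hω => ?_)
              (measure_iUnion_null fun e => ?_)
            · obtain ⟨p, m, -, hc⟩ := hω
              by_contra hno
              simp only [Set.mem_iUnion, Set.mem_setOf_eq, not_exists, not_lt] at hno
              have : 0 ≤ cost ω p m := Finset.sum_nonneg fun i _ => hno _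
              rw [h'] at hc; push_cast at hc
              linarith
            · rw [show {ω : Sym2 V → ℝ | ω e < 0} = (fun ω => ω e) ⁻¹' Set.Iio 0 from rfl,
                ← Measure.map_apply (measurable_pi_apply e) measurableSet_Iio,
                (measurePreserving_eval_infinitePi (fun _ : Sym2 V => G) e).map_eq, hG]
          rw [measureReal_def, hnull]; norm_num
        · have := Nat.find_min hex (Nat.sub_one_lt_of_lt h')
          rw [not_le, Nat.cast_sub h'] at this
          push_cast at this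
          rw [show (k : ℝ) * h - h = ((k : ℝ) - 1) * h by ring]
          exact this
      have hlow' := low_lowered_prob hab hb h0 h1 hwL hL hq ht hh hk1
      have hdis : Disjoint (edges (upper g w) x₀ L w) (edges g x₀ L w) := by
        rw [Finset.disjoint_left]
        intro e he he'
        induction e using Sym2.ind with
        | _ u v =>
          have h1 := (mem_tube.1 (edges_tube he (Sym2.mem_mk_left _ _))).2.2
          have h2 := (mem_tube.1 (edges_tube he' (Sym2.mem_mk_left _ _))).2.2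
          simp only [upper, abs_le] at h1 h2
          omega
      have hind := law_inter G hdis (measurableSet_low ((k : ℝ) * h - 2 * h))
        (measurableSet_low (g := g) (x₀ := x₀) (L := L) (w := w) ((k : ℝ) * h - h)).compl
        (determined_low _) (determined_low _).compl
      refine le_trans ?_ (measureReal_mono
        (s₁ := low (upper g w) x₀ L w ((k : ℝ) * h - 2 * h) ∩ (low g x₀ L w ((k : ℝ) * h - h))ᶜ)
        fun ω hω => Or.inr (Set.mem_iUnion.2 ⟨k, hω⟩))
      rw [measureReal_def, hind, ENNReal.toReal_mul, law_low_upper G, ← measureReal_def,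
        ← measureReal_def, probReal_compl_eq_one_sub (measurableSet_low _)]
      refine le_trans ?_ (mul_le_mul hlow' (by linarith : (1 / 2 : ℝ) ≤ _) (by norm_num)
        measureReal_nonneg)
      rw [div_mul_div_comm, le_div_iff₀ (by positivity)]
      linarith
    · push Not at hex
      have hmono : Monotone fun k : ℕ => low g x₀ L w (k * h) := fun i j hij =>
        low_mono (mul_le_mul_of_nonneg_right (by exact_mod_cast hij) hpos.le)
      have hlim := tendsto_measure_iUnion_atTop (μ := law G) hmono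
      have hu : (law G).real (⋃ k : ℕ, low g x₀ L w (k * h)) ≤ 1 / 2 :=
        le_of_tendsto' ((ENNReal.tendsto_toReal (measure_ne_top _ _)).comp hlim) fun k => (hex k).le
      have hc := probReal_compl_eq_one_sub (μ := law G)
        (MeasurableSet.iUnion fun k : ℕ => measurableSet_low (g := g) (x₀ := x₀) (L := L) (w := w)
          ((k : ℝ) * h))
      rw [Set.compl_iUnion] at hc
      refine le_trans ?_ (measureReal_mono (s₁ := ⋂ k : ℕ, (low g x₀ L w (k * h))ᶜ)
        Set.subset_union_left)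
      linarith
  have : (law G).real E ≤ (law G).real (nice g x₀ L w α Bd h) +
      (law G).real (conn g x₀ L w α Bd)ᶜ :=
    (measureReal_mono (fun ω hω => by
      by_cases hc : ω ∈ conn g x₀ L w α Bd
      · exact Or.inl ⟨hc, hω⟩
      · exact Or.inr hc)).trans (measureReal_union_le _ _)
  linarith

/-- There is a walk from `u` to `v` of cost at most `C`. -/
def Link (ω : Sym2 V → ℝ) (u v : V) (C : ℝ) : Prop :=
  ∃ q l, q 0 = u ∧ q l = v ∧ IsWalk q l ∧ cost ω q l ≤ C

theorem Link.trans {ω : Sym2 V → ℝ} {u v x : V} {C D : ℝ} (h₁ : Link ω u v C)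
    (h₂ : Link ω v x D) : Link ω u x (C + D) := by
  obtain ⟨p, m, hp0, hpm, hpw, hpc⟩ := h₁
  obtain ⟨q, l, hq0, hql, hqw, hqc⟩ := h₂
  let f : ℕ → V := fun k => if k ≤ m then p k else q (k - m)
  have hA : ∀ k ≤ m, f k = p k := fun k hk => if_pos hk
  have hB : ∀ j, f (m + j) = q j := fun j => by
    rcases Nat.eq_zero_or_pos j with rfl | hj
    · simp [f, hpm, hq0]
    · simp [f, show ¬ m + j ≤ m by omega]
  refine ⟨f, m + l, by rw [hA 0 (Nat.zero_le _), hp0], by rw [hB, hql], fun k hk => ?_, ?_⟩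
  · by_cases h : k < m
    · rw [hA k h.le, hA (k + 1) h]; exact hpw k h
    · rw [show k = m + (k - m) by omega, hB,
        show m + (k - m) + 1 = m + (k - m + 1) by omega, hB]
      exact hqw _ (by omega)
  · unfold cost at *
    rw [Finset.sum_range_add]
    refine add_le_add (le_trans (le_of_eq ?_) hpc) (le_trans (le_of_eq ?_) hqc)
    · exact Finset.sum_congr rfl fun k hk => by
        rw [hA k (Finset.mem_range.1 hk).le, hA (k + 1) (Finset.mem_range.1 hk)]
    · exact Finset.sum_congr rfl fun k _ => by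
        rw [hB, show m + k + 1 = m + (k + 1) by omega, hB]

theorem Link.symm {ω : Sym2 V → ℝ} {u v : V} {C : ℝ} (h : Link ω u v C) : Link ω v u C := by
  obtain ⟨q, l, h0, hl, hw, hc⟩ := h
  exact ⟨rev q l, l, by simpa [rev] using hl, by simpa [rev] using h0, isWalk_rev hw,
    (cost_rev ω q l).le.trans hc⟩

theorem link_column {ω : Sym2 V → ℝ} (hω : ∀ e, 0 ≤ ω e) (f : ℤ → ℤ) (W : ℕ) (x y y' : ℤ)
    (hy : f x - W ≤ y ∧ y ≤ f x + W + 1) (hy' : f x - W ≤ y' ∧ y' ≤ f x + W + 1) :
    Link ω (x, y) (x, y') (2 * ∑ e ∈ column f W x, ω e) := by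
  have key : ∀ z, f x - W ≤ z ∧ z ≤ f x + W + 1 →
      Link ω (x, f x - W) (x, z) (∑ e ∈ column f W x, ω e) := by
    intro z hz
    obtain ⟨d, hd⟩ : ∃ d : ℕ, z = f x - W + d := ⟨(z - (f x - W)).toNat, by omega⟩
    subst hd
    refine ⟨fun k => (x, f x - W + k), d, by simp, rfl, fun k _ => ?_, ?_⟩
    · simp [Adj]
    · have hi : Set.InjOn (fun k : ℕ => s((x, f x - W + k), (x, f x - W + k + 1))) (range d) :=
        fun i _ j _ h => by
          rcases Sym2.eq_iff.1 h with ⟨h1, -⟩ | ⟨h1, h2⟩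
          · simp at h1; exact h1
          · simp at h1 h2; omega
      unfold cost
      calc ∑ k ∈ range d, ω s((x, f x - W + k), (x, f x - W + ((k + 1 : ℕ) : ℤ)))
          = ∑ e ∈ (range d).image fun k : ℕ => s((x, f x - W + k), (x, f x - W + k + 1)), ω e := by
            rw [Finset.sum_image hi]
            exact Finset.sum_congr rfl fun k _ => by push_cast; rw [add_assoc]
        _ ≤ _ := Finset.sum_le_sum_of_subset_of_nonneg
            (Finset.image_subset_image (Finset.range_subset_range.2 (by omega))) fun e _ _ => hω e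
  rw [two_mul]
  exact (key y hy).symm.trans (key y' hy')

theorem rpow_sum_le {ι : Type*} (s : Finset ι) (f : ι → ℝ) (hf : ∀ i, 0 ≤ f i) {α : ℝ}
    (h0 : 0 < α) (h1 : α ≤ 1) : (∑ i ∈ s, f i) ^ α ≤ ∑ i ∈ s, f i ^ α := by
  induction s using Finset.cons_induction with
  | empty => simp [zero_rpow h0.ne']
  | cons j s hj ih =>
    rw [Finset.sum_cons, Finset.sum_cons]
    have h := NNReal.rpow_add_le_add_rpow ⟨f j, hf j⟩
      ⟨∑ i ∈ s, f i, Finset.sum_nonneg fun i _ => hf i⟩ h0.le h1
    have h' : (f j + ∑ i ∈ s, f i) ^ α ≤ f j ^ α + (∑ i ∈ s, f i) ^ α := by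
      have := NNReal.coe_le_coe.2 h
      simp only [NNReal.coe_rpow, NNReal.coe_add] at this
      exact this
    linarith

theorem no_crossing {α Bd h : ℝ} (h0 : 0 < α) (h1 : α ≤ 1) (hpos : 0 < h)
    (hh : 4 * Bd ^ (1 / α) ≤ h) (hL : 1 ≤ L) {ω : Sym2 V → ℝ} (hω : ∀ e, 0 ≤ ω e)
    (hn : ω ∈ nice g x₀ L w α Bd h) {p : ℕ → V} {m : ℕ} (hp : IsWalk p m)
    (hinj : Set.InjOn p (Set.Iic m)) (hgeo : Geo ω p m)
    (hp0 : (p 0).1 = x₀) (hpm : (p m).1 = x₀ + L)
    (hlo : ∀ k ≤ m, 0 < k → x₀ < (p k).1) (hhi : ∀ k < m, (p k).1 < x₀ + L)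
    (htube : ∀ k ≤ m, |(p k).2 - g (p k).1| ≤ w) : False := by
  have hT : ∀ k ≤ m, p k ∈ tube g x₀ L w := fun k hk => by
    refine mem_tube.2 ⟨?_, ?_, htube k hk⟩
    · rcases Nat.eq_zero_or_pos k with rfl | h
      · exact hp0.ge
      · exact (hlo k hk h).le
    · rcases hk.eq_or_lt with rfl | h
      · exact hpm.le
      · exact (hhi k h).le
  have hc : Crossing g x₀ L w p m := by
    refine ⟨hp0, hpm, hp, hinj, fun k hk => mem_edges (hT k hk.le) (hp k hk) ?_⟩
    refine Finset.mem_filter.2 ⟨Finset.mem_sym2_iff.2 fun v hv => ?_, fun h => ?_, fun h => ?_⟩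
    · rcases Sym2.mem_iff.1 hv with rfl | rfl
      · exact hT k hk.le
      · exact hT (k + 1) hk
    · exact (hlo (k + 1) hk k.succ_pos).ne' (h _ (Sym2.mem_mk_right _ _))
    · exact (hhi k hk).ne (h _ (Sym2.mem_mk_left _ _))
  obtain ⟨hn1, hn2 | hn2⟩ := hn
  · obtain ⟨k, hk⟩ := exists_nat_ge (cost ω p m / h)
    rw [div_le_iff₀ hpos] at hk
    exact Set.mem_iInter.1 hn2 k ⟨p, m, hc, hk⟩
  obtain ⟨k, ⟨q, l, hq, hqc⟩, hno⟩ := Set.mem_iUnion.1 hn2
  have hnot : ¬ cost ω p m ≤ (k : ℝ) * h - h := fun h' => hno ⟨p, m, hc, h'⟩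
  set f : ℤ → ℤ := fun x => g x + w with hf
  have hsum : ∀ S : Finset (Sym2 V), S ⊆ cols g x₀ L w → ∑ e ∈ S, ω e ≤ Bd ^ (1 / α) := by
    intro S hS
    have hnn : 0 ≤ ∑ e ∈ S, ω e := Finset.sum_nonneg fun e _ => hω e
    have h2 : (∑ e ∈ S, ω e) ^ α ≤ Bd := by
      refine (rpow_sum_le S ω hω h0 h1).trans (le_trans ?_ hn1)
      refine le_trans (le_of_eq (Finset.sum_congr rfl fun e _ => ?_))
        (Finset.sum_le_sum_of_subset_of_nonneg hS fun e _ _ => by positivity)
      rw [max_eq_left (hω e)]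
    calc ∑ e ∈ S, ω e = ((∑ e ∈ S, ω e) ^ α) ^ (1 / α) := by
          rw [one_div, rpow_rpow_inv hnn h0.ne']
      _ ≤ _ := rpow_le_rpow (by positivity) h2 (by positivity)
  have hqt : ∀ j ≤ l, q j ∈ tube (upper g w) x₀ L w := fun j hj => by
    have hl1 : 1 ≤ l := by
      rcases Nat.eq_zero_or_pos l with rfl | h
      · have := hq.1.symm.trans hq.2.1; omega
      · exact h
    rcases hj.eq_or_lt with rfl | h
    · have := edges_tube (hq.2.2.2.2 (j - 1) (by omega)) (Sym2.mem_mk_right _ _)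
      rwa [Nat.sub_add_cancel hl1] at this
    · exact edges_tube (hq.2.2.2.2 j h) (Sym2.mem_mk_left _ _)
  have a0 := abs_le.1 (htube 0 (Nat.zero_le _))
  have am := abs_le.1 (htube m le_rfl)
  have b0 := abs_le.1 (mem_tube.1 (hqt 0 (Nat.zero_le _))).2.2
  have bl := abs_le.1 (mem_tube.1 (hqt l le_rfl)).2.2
  rw [hp0] at a0; rw [hpm] at am
  simp only [upper, hq.1] at b0
  simp only [upper, hq.2.1] at bl
  have l1 := link_column hω f (2 * w) x₀ (p 0).2 (q 0).2 (by simp only [hf]; omega)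
    (by simp only [hf]; omega)
  have l3 := link_column hω f (2 * w) (x₀ + L) (q l).2 (p m).2 (by simp only [hf]; omega)
    (by simp only [hf]; omega)
  rw [show (x₀, (p 0).2) = p 0 from Prod.ext hp0.symm rfl,
    show (x₀, (q 0).2) = q 0 from Prod.ext hq.1.symm rfl] at l1
  rw [show (x₀ + (L : ℤ), (q l).2) = q l from Prod.ext hq.2.1.symm rfl,
    show (x₀ + (L : ℤ), (p m).2) = p m from Prod.ext hpm.symm rfl] at l3
  obtain ⟨r, n, hr0, hrn, hrw, hrc⟩ := (l1.trans ⟨q, l, rfl, rfl, hq.2.2.1, hqc⟩).trans l3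
  have := hgeo r n hr0 hrn hrw
  have := hsum (column f (2 * w) x₀) Finset.subset_union_left
  have := hsum (column f (2 * w) (x₀ + L)) Finset.subset_union_right
  exact hnot (by linarith)

end Vale.Agent.P158.Power
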