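import Vale.Agent.P158.Power.Scale

/-! Geodesic rays leave every tube of power width around every line. -/

noncomputable section

namespace Vale.Agent.P158.Power

open Finset MeasureTheory ProbabilityTheory Filter Topology Real Vale.Agent.P158.Tube
open scoped Classical ENNReal

/-- The width function. -/
def phi (θ X : ℝ) : ℝ := (X / log X) ^ θ

theorem half_le_log_two : (1 / 2 : ℝ) ≤ log 2 := by
  linarith [log_two_gt_d9]

theorem log_le_two_sqrt {X : ℝ} (hX : 0 < X) : log X ≤ 2 * sqrt X := by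
  calc log X = 2 * log (sqrt X) := by rw [log_sqrt hX.le]; ring
    _ ≤ 2 * sqrt X := by
      have := log_le_self (sqrt_nonneg X)
      linarith

theorem phi_le {θ X : ℝ} (hθ : 0 < θ) (hθ1 : θ ≤ 1) (hX : 2 ≤ X) : phi θ X ≤ 2 * X := by
  have hl : 1 / 2 ≤ log X := half_le_log_two.trans (log_le_log two_pos hX)
  have h0 : 0 ≤ X / log X := div_nonneg (by linarith) (by linarith)
  have h1 : X / log X ≤ 2 * X := by
    rw [div_le_iff₀ (by linarith)]
    calc X = 2 * X * (1 / 2) := by ring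
      _ ≤ _ := mul_le_mul_of_nonneg_left hl (by linarith)
  calc phi θ X ≤ (2 * X) ^ θ := rpow_le_rpow h0 h1 hθ.le
    _ ≤ (2 * X) ^ (1 : ℝ) := rpow_le_rpow_of_exponent_le (by linarith) hθ1
    _ = _ := rpow_one _

theorem phi_le_scale {θ X n : ℝ} (hθ : 0 < θ) (hθ1 : θ ≤ 1) (hn : 2 ≤ n) (hX : 2 ≤ X)
    (hXn : X ≤ 12 * n) : phi θ X ≤ 24 * (n / log n) ^ θ := by
  have hln : 0 < log n := log_pos (by linarith)
  have hlX : 1 / 2 ≤ log X := half_le_log_two.trans (log_le_log two_pos hX)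
  have key : X / log X ≤ 24 * (n / log n) := by
    rw [← mul_div_assoc, div_le_div_iff₀ (by linarith) hln]
    by_cases h : X ≤ sqrt n
    · have h1 : sqrt n * log n ≤ sqrt n * (2 * sqrt n) :=
        mul_le_mul_of_nonneg_left (log_le_two_sqrt (by linarith)) (sqrt_nonneg _)
      have h2 : X * log n ≤ sqrt n * log n := mul_le_mul_of_nonneg_right h hln.le
      have h3 : 24 * n * (1 / 2) ≤ 24 * n * log X := mul_le_mul_of_nonneg_left hlX (by linarith)
      have h4 : sqrt n * sqrt n = n := mul_self_sqrt (by linarith)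
      linarith
    · push Not at h
      have h1 := log_lt_log (sqrt_pos.2 (by linarith)) h
      rw [log_sqrt (by linarith)] at h1
      have h2 : X * log n ≤ 12 * n * log n := mul_le_mul_of_nonneg_right hXn hln.le
      have h3 : 12 * n * log n ≤ 12 * n * (2 * log X) :=
        mul_le_mul_of_nonneg_left (by linarith) (by linarith)
      linarith
  calc phi θ X ≤ (24 * (n / log n)) ^ θ :=
        rpow_le_rpow (div_nonneg (by linarith) (by linarith)) key hθ.le
    _ = 24 ^ θ * (n / log n) ^ θ := mul_rpow (by norm_num) (div_nonneg (by linarith) hln.le)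
    _ ≤ 24 ^ (1 : ℝ) * (n / log n) ^ θ := mul_le_mul_of_nonneg_right
        (rpow_le_rpow_of_exponent_le (by norm_num) hθ1) (rpow_nonneg (div_nonneg (by linarith) hln.le) _)
    _ = _ := by rw [rpow_one]

theorem tendsto_div_log : Tendsto (fun n : ℕ => (n : ℝ) / log n) atTop atTop := by
  refine tendsto_atTop_mono' atTop ?_
    ((tendsto_sqrt_atTop.comp tendsto_natCast_atTop_atTop).atTop_div_const two_pos)
  filter_upwards [eventually_ge_atTop 2] with n hn
  have hn' : (2 : ℝ) ≤ n := by exact_mod_cast hn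
  simp only [Function.comp]
  rw [div_le_div_iff₀ two_pos (log_pos (by linarith))]
  have h1 := mul_le_mul_of_nonneg_left (log_le_two_sqrt (by linarith : (0 : ℝ) < n)) (sqrt_nonneg (n : ℝ))
  have h4 : sqrt (n : ℝ) * sqrt n = n := mul_self_sqrt (by linarith)
  linarith

theorem ray_power (G : Measure ℝ) [IsProbabilityMeasure G] [NullSingletonClass G]
    (h0 : G (Set.Iio 0) = 0) {α : ℝ} (hα : 0 < α) (hα1 : α ≤ 1)
    (hint : ∫⁻ x, ENNReal.ofReal (x ^ α) ∂G ≠ ∞) :
    ∃ c : ℝ, 0 < c ∧ ∀ᵐ ω ∂law G, ∀ γ, IsRay ω γ → ∀ s t : ℝ, |s| ≤ 1 →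
      ∃ᶠ i in atTop, c * phi (α / (α + 2)) (2 + |((γ i).1 : ℝ)| + |((γ i).2 : ℝ)|) <
        |((γ i).2 : ℝ) - s * (γ i).1 - t| := by
  obtain ⟨γ₀, hγ₀, hae⟩ := eventually_no_crossing G h0 hα hα1 hint
  have hθ : 0 < α / (α + 2) := by positivity
  have hθ1 : α / (α + 2) ≤ 1 := by rw [div_le_one (by positivity)]; linarith
  set θ := α / (α + 2) with hθdef
  have hgp : (0 : ℝ) < γ₀ ^ θ := rpow_pos_of_pos hγ₀ _
  set c := min (γ₀ ^ θ / 48) (1 / 4) with hcdef
  have hc : 0 < c := lt_min (by positivity) (by norm_num)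
  have hc2 : c ≤ 1 / 4 := min_le_right _ _
  have hc4 : c ≤ γ₀ ^ θ / 48 := min_le_left _ _
  refine ⟨c, hc, ?_⟩
  have hwid : Tendsto (fun n : ℕ => (γ₀ * (n / log n)) ^ θ) atTop atTop :=
    (tendsto_rpow_atTop hθ).comp (tendsto_div_log.const_mul_atTop hγ₀)
  filter_upwards [hae] with ω hω γ ⟨hinj, hadj, hgeo⟩ s t hs
  by_contra hcon
  rw [not_frequently, eventually_atTop] at hcon
  obtain ⟨i₀, hi₀⟩ := hcon
  simp only [not_lt] at hi₀
  obtain ⟨n, hn, hnγ, hn12, hni, hnt⟩ :=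
    (hω.and ((hwid.eventually_ge_atTop 12).and ((eventually_ge_atTop 12).and
      ((eventually_ge_atTop ((γ i₀).1.natAbs + 1)).and
        (tendsto_natCast_atTop_atTop.eventually (eventually_ge_atTop (|t| + 2))))))).exists
  have hn0 : 0 < n := by omega
  have hnR : (12 : ℝ) ≤ n := by exact_mod_cast hn12
  set a := ⌊s * (n : ℝ)⌋ with hadef
  set b := ⌊t⌋ with hbdef
  have ha1 := Int.floor_le (s * (n : ℝ))
  have ha2 := Int.lt_floor_add_one (s * (n : ℝ))
  have hb1 := Int.floor_le t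
  have hb2 := Int.lt_floor_add_one t
  rw [← hadef] at ha1 ha2
  rw [← hbdef] at hb1 hb2
  obtain ⟨hs1, hs2⟩ := abs_le.1 hs
  have ha : |a| ≤ (n : ℤ) := by
    rw [abs_le]
    constructor
    · have : ((-(n : ℤ) : ℤ) : ℝ) < (a : ℝ) + 1 := by push_cast; nlinarith
      exact_mod_cast Int.lt_add_one_iff.1 (by exact_mod_cast this)
    · have : (a : ℝ) ≤ ((n : ℤ) : ℝ) := by push_cast; nlinarith
      exact_mod_cast this
  have hb : |b| ≤ (n : ℤ) := by
    rw [abs_le]
    constructor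
    · have : ((-(n : ℤ) : ℤ) : ℝ) < (b : ℝ) + 1 := by push_cast; linarith [neg_abs_le t]
      exact_mod_cast Int.lt_add_one_iff.1 (by exact_mod_cast this)
    · have : (b : ℝ) ≤ ((n : ℤ) : ℝ) := by push_cast; linarith [le_abs_self t]
      exact_mod_cast this
  set w := pwid γ₀ θ n with hwdef
  have hwlt : (γ₀ * ((n : ℝ) / log n)) ^ θ < (w : ℝ) + 1 := Nat.lt_floor_add_one _
  have height : ∀ i ≥ i₀, |(γ i).1| ≤ 2 * n → |((γ i).2 : ℝ)| ≤ 9 * n := fun i hi hx => by
    have hx' : |((γ i).1 : ℝ)| ≤ 2 * n := by exact_mod_cast hx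
    have h1 := hi₀ i hi
    have h2 : phi θ (2 + |((γ i).1 : ℝ)| + |((γ i).2 : ℝ)|) ≤
        2 * (2 + |((γ i).1 : ℝ)| + |((γ i).2 : ℝ)|) :=
      phi_le hθ hθ1 (by linarith [abs_nonneg ((γ i).1 : ℝ), abs_nonneg ((γ i).2 : ℝ)])
    have h4 : c * phi θ (2 + |((γ i).1 : ℝ)| + |((γ i).2 : ℝ)|) ≤
        1 / 2 * (2 + |((γ i).1 : ℝ)| + |((γ i).2 : ℝ)|) :=
      (mul_le_mul_of_nonneg_left h2 hc.le).trans (by
        have := mul_le_mul_of_nonneg_right hc2 (show (0 : ℝ) ≤ 2 * (2 + |((γ i).1 : ℝ)| +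
          |((γ i).2 : ℝ)|) by positivity)
        linarith)
    have h5 : |((γ i).2 : ℝ)| ≤
        |((γ i).2 : ℝ) - s * (γ i).1 - t| + |s * (γ i).1| + |t| := by
      calc |((γ i).2 : ℝ)| = |(((γ i).2 : ℝ) - s * (γ i).1 - t) + s * (γ i).1 + t| := by ring_nf
        _ ≤ _ := abs_add_three _ _ _
    rw [abs_mul] at h5
    have h6 : |s| * |((γ i).1 : ℝ)| ≤ 1 * (2 * n) := mul_le_mul hs hx' (abs_nonneg _) one_pos.le
    linarith
  have close : ∀ i ≥ i₀, |(γ i).1| ≤ 2 * n →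
      |(γ i).2 - gline n a b (γ i).1| ≤ (w : ℤ) := fun i hi hx => by
    have hx' : |((γ i).1 : ℝ)| ≤ 2 * n := by exact_mod_cast hx
    have hy := height i hi hx
    have h1 : |((γ i).2 : ℝ) - s * (γ i).1 - t| ≤ (γ₀ * ((n : ℝ) / log n)) ^ θ / 2 := by
      refine (hi₀ i hi).trans ?_
      have hl := phi_le_scale hθ hθ1 (show (2 : ℝ) ≤ n by linarith)
        (show 2 ≤ 2 + |((γ i).1 : ℝ)| + |((γ i).2 : ℝ)| by
          linarith [abs_nonneg ((γ i).1 : ℝ), abs_nonneg ((γ i).2 : ℝ)])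
        (show 2 + |((γ i).1 : ℝ)| + |((γ i).2 : ℝ)| ≤ 12 * n by linarith)
      have hnl : 0 ≤ (n : ℝ) / log n := div_nonneg (by positivity) (log_nonneg (by linarith))
      have hp0 : 0 ≤ ((n : ℝ) / log n) ^ θ := rpow_nonneg hnl _
      rw [mul_rpow hγ₀.le hnl]
      calc c * phi θ _ ≤ c * (24 * ((n : ℝ) / log n) ^ θ) := mul_le_mul_of_nonneg_left hl hc.le
        _ ≤ γ₀ ^ θ / 48 * (24 * ((n : ℝ) / log n) ^ θ) :=
          mul_le_mul_of_nonneg_right hc4 (by positivity)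
        _ = _ := by ring
    have hnpos : (0 : ℤ) < n := by exact_mod_cast hn0
    have hq1 : ((a * (γ i).1 / (n : ℤ) : ℤ) : ℝ) * n ≤ a * (γ i).1 := by
      exact_mod_cast Int.ediv_mul_le _ hnpos.ne'
    have hq2 : (a : ℝ) * (γ i).1 < (((a * (γ i).1 / (n : ℤ) : ℤ) : ℝ) + 1) * n := by
      exact_mod_cast Int.lt_ediv_add_one_mul_self _ hnpos
    set q := a * (γ i).1 / (n : ℤ) with hqdef
    have h2 : |(q : ℝ) - s * (γ i).1| ≤ 3 := by
      have hax : |((a : ℝ) - s * n) * (γ i).1| ≤ 2 * n := by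
        rw [abs_mul]
        have : |(a : ℝ) - s * n| ≤ 1 := abs_le.2 ⟨by linarith, by linarith⟩
        calc _ ≤ 1 * |((γ i).1 : ℝ)| := mul_le_mul_of_nonneg_right this (abs_nonneg _)
          _ ≤ _ := by linarith
      rw [abs_le] at hax ⊢
      constructor <;> nlinarith
    have h3 : |((γ i).2 : ℝ) - ((b + q : ℤ) : ℝ)| ≤ (γ₀ * ((n : ℝ) / log n)) ^ θ / 2 + 4 := by
      push_cast
      rw [abs_le] at h1 h2 ⊢
      constructor <;> linarith
    have h4 : ((|(γ i).2 - gline n a b (γ i).1| : ℤ) : ℝ) ≤ ((w : ℤ) : ℝ) := by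
      simp only [gline, ← hqdef]
      push_cast at h3 ⊢
      linarith
    exact_mod_cast h4
  have hfar : ∃ j, i₀ ≤ j ∧ (2 * (n : ℤ)) < |(γ j).1| := by
    by_contra hno
    push Not at hno
    have hsub : γ '' Set.Ici i₀ ⊆
        ↑(Finset.Icc (-(2 * n : ℤ)) (2 * n) ×ˢ Finset.Icc (-(9 * n : ℤ)) (9 * n)) := by
      rintro _ ⟨i, hi, rfl⟩
      have hy := height i hi (hno i hi)
      simp only [Finset.coe_product, Finset.coe_Icc, Set.mem_prod, Set.mem_Icc, ← abs_le]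
      exact ⟨hno i hi, by exact_mod_cast hy⟩
    exact (Set.Ici_infinite i₀).image hinj.injOn ((Finset.finite_toSet _).subset hsub)
  obtain ⟨j, hij, hj⟩ := hfar
  have hstep : ∀ k, |(γ (k + 1)).1 - (γ k).1| ≤ 1 := fun k => adj_fst (hadj k)
  have hi0x : -(n : ℤ) < (γ i₀).1 ∧ (γ i₀).1 < n := by omega
  rcases lt_abs.1 hj with hj' | hj'
  · obtain ⟨x₀, L, hL1, hr1, hr2, hno⟩ := hn a b ha hb true
    simp only [base, if_true] at hr1 hr2
    obtain ⟨a', b', h1, h2, h3, h4, h5, h6, h7⟩ :=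
      exists_crossing (f := fun k => (γ k).1) hstep hij (lo := x₀) (hi := x₀ + L)
        (by omega) (by omega) (by omega)
    refine hno (fun i => γ (a' + i)) (b' - a')
      (fun i _ => hadj (a' + i)) (fun i _ i' _ h => Nat.add_left_cancel (hinj h))
      (hgeo a' _) (by simpa using h4) (by simp only [Nat.add_sub_cancel' h2]; exact h5)
      (fun i hi h => h6 _ (by omega) (by omega)) (fun i hi => h7 _ (by omega) (by omega))
      fun i hi => close _ (by omega) ?_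
    rw [abs_le]
    rcases Nat.eq_zero_or_pos i with rfl | hpos
    · simp only [add_zero]; omega
    · rcases hi.eq_or_lt with rfl | hlt
      · rw [show a' + (b' - a') = b' by omega]; omega
      · have := h6 (a' + i) (by omega) (by omega)
        have := h7 (a' + i) (by omega) (by omega)
        omega
  · obtain ⟨x₀, L, hL1, hr1, hr2, hno⟩ := hn a b ha hb false
    simp only [base, Bool.false_eq_true, if_false] at hr1 hr2
    obtain ⟨a', b', h1, h2, h3, h4, h5, h6, h7⟩ :=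
      exists_crossing (f := fun k => -(γ k).1)
        (fun k => by simpa [neg_add_eq_sub, abs_sub_comm] using hstep k) hij
        (lo := -(x₀ + L)) (hi := -x₀) (by omega) (by omega) (by omega)
    simp only [neg_inj] at h4 h5 h6 h7
    refine hno (rev (fun i => γ (a' + i)) (b' - a')) (b' - a')
      (isWalk_rev fun i _ => hadj (a' + i))
      (fun i hi i' hi' h => by
        simp only [Set.mem_Iic] at hi hi'
        have := hinj h
        omega)
      (hgeo a' _).rev (by simp only [rev, Nat.sub_zero, Nat.add_sub_cancel' h2]; exact h5)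
      (by simp only [rev, Nat.sub_self, add_zero]; exact h4)
      (fun i hi h => ?_) (fun i hi => ?_) fun i hi => close _ (by omega) ?_
    · have := h7 (a' + (b' - a' - i)) (by omega) (by omega)
      simp only [rev]; omega
    · have := h6 (a' + (b' - a' - i)) (by omega) (by omega)
      simp only [rev]; omega
    rw [abs_le]
    rcases Nat.eq_zero_or_pos i with rfl | hpos
    · simp only [Nat.sub_zero, show a' + (b' - a') = b' by omega]; omega
    · rcases hi.eq_or_lt with rfl | hlt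
      · simp only [Nat.sub_self, add_zero]; omega
      · have := h6 (a' + (b' - a' - i)) (by omega) (by omega)
        have := h7 (a' + (b' - a' - i)) (by omega) (by omega)
        omega

theorem Geo.congr {ω : Sym2 V → ℝ} {p q : ℕ → V} {m : ℕ} (h : Geo ω p m)
    (e : ∀ k ≤ m, q k = p k) : Geo ω q m := by
  intro r l h0 hl hw
  refine le_trans (le_of_eq ?_) (h r l (h0.trans (e 0 (Nat.zero_le _))) (hl.trans (e m le_rfl)) hw)
  exact Finset.sum_congr rfl fun k hk => by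
    rw [e k (Finset.mem_range.1 hk).le, e (k + 1) (Finset.mem_range.1 hk)]

theorem main (G : Measure ℝ) [IsProbabilityMeasure G] [NullSingletonClass G]
    (h0 : G (Set.Iio 0) = 0) {a : ℝ} (ha : 0 < a) (ha1 : a ≤ 1)
    (hint : ∫⁻ x, ENNReal.ofReal (x ^ a) ∂G ≠ ∞) :
    ∃ c : ℝ, 0 < c ∧ ∀ᵐ ω ∂law G,
      (∀ γ, IsRay ω γ → ∀ α β κ : ℝ, α ^ 2 + β ^ 2 = 1 →
        ∃ᶠ i in atTop, c * phi (a / (a + 2)) (2 + |((γ i).1 : ℝ)| + |((γ i).2 : ℝ)|) <
          |α * (γ i).1 + β * (γ i).2 - κ|) ∧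
      ∀ γ, IsBigeodesic ω γ → ∀ α β κ : ℝ, α ^ 2 + β ^ 2 = 1 → ∀ N : ℕ,
        (∃ i : ℤ, (N : ℤ) ≤ i ∧ c * phi (a / (a + 2)) (2 + |((γ i).1 : ℝ)| + |((γ i).2 : ℝ)|) <
          |α * (γ i).1 + β * (γ i).2 - κ|) ∧
        ∃ i : ℤ, i ≤ -(N : ℤ) ∧ c * phi (a / (a + 2)) (2 + |((γ i).1 : ℝ)| + |((γ i).2 : ℝ)|) <
          |α * (γ i).1 + β * (γ i).2 - κ| := by
  obtain ⟨c, hc, hae⟩ := ray_power G h0 ha ha1 hint
  refine ⟨c / 2, by linarith, ?_⟩
  set θ := a / (a + 2)
  have hmap : (law G).map Tube.flip = law G :=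
    Measure.map_infinitePi_infinitePi_of_inj (Sym2.map.injective Prod.swap_injective)
  have hae' : ∀ᵐ ω ∂law G, ∀ γ, IsRay (Tube.flip ω) γ → ∀ s t : ℝ, |s| ≤ 1 →
      ∃ᶠ i in atTop, c * phi θ (2 + |((γ i).1 : ℝ)| + |((γ i).2 : ℝ)|) <
        |((γ i).2 : ℝ) - s * (γ i).1 - t| := by
    have h : ∀ᵐ ω ∂(law G).map Tube.flip, ∀ γ, IsRay ω γ → ∀ s t : ℝ, |s| ≤ 1 →
        ∃ᶠ i in atTop, c * phi θ (2 + |((γ i).1 : ℝ)| + |((γ i).2 : ℝ)|) <
          |((γ i).2 : ℝ) - s * (γ i).1 - t| := by rwa [hmap]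
    exact ae_of_ae_map
      (measurable_pi_lambda _ fun e => measurable_pi_apply _).aemeasurable h
  filter_upwards [hae, hae'] with ω h1 h2
  have key : ∀ α β κ x y D : ℝ, 1 ≤ 2 * β ^ 2 → 0 ≤ D →
      D < |y - -α / β * x - κ / β| → D / 2 < |α * x + β * y - κ| := by
    intro α β κ x y D hβ hD h
    have hβ0 : β ≠ 0 := fun h => by rw [h] at hβ; norm_num at hβ
    have hβ' : 1 / 2 < |β| := by nlinarith [sq_abs β, abs_nonneg β]
    have e : |α * x + β * y - κ| = |β| * |y - -α / β * x - κ / β| := by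
      rw [← abs_mul]; congr 1; field_simp; ring
    rw [e]
    nlinarith
  have hslope : ∀ α β : ℝ, α ^ 2 + β ^ 2 = 1 → 1 ≤ 2 * β ^ 2 → |-α / β| ≤ 1 := fun α β h hβ => by
    have hβ0 : β ≠ 0 := fun h => by rw [h] at hβ; norm_num at hβ
    rw [abs_div, abs_neg, div_le_one (abs_pos.2 hβ0)]
    exact sq_le_sq.1 (by linarith)
  have hlines : ∀ γ, IsRay ω γ → ∀ α β κ : ℝ, α ^ 2 + β ^ 2 = 1 →
      ∃ᶠ i in atTop, c / 2 * phi θ (2 + |((γ i).1 : ℝ)| + |((γ i).2 : ℝ)|) <
        |α * (γ i).1 + β * (γ i).2 - κ| := by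
    intro γ hγ α β κ hab
    have hnn : ∀ u : V, 0 ≤ c * phi θ (2 + |(u.1 : ℝ)| + |(u.2 : ℝ)|) := fun u =>
      mul_nonneg hc.le (rpow_nonneg (div_nonneg (by positivity)
        (log_nonneg (by linarith [abs_nonneg (u.1 : ℝ), abs_nonneg (u.2 : ℝ)]))) _)
    by_cases hβ : 1 ≤ 2 * β ^ 2
    · refine (h1 γ hγ (-α / β) (κ / β) (hslope α β hab hβ)).mono fun i hi => ?_
      have := key α β κ _ _ _ hβ (hnn (γ i)) hi
      linarith
    · have hα : 1 ≤ 2 * α ^ 2 := by linarith [not_le.1 hβ]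
      refine (h2 _ hγ.flip (-β / α) (κ / α) (hslope β α (by linarith) hα)).mono fun i hi => ?_
      simp only [Prod.fst_swap, Prod.snd_swap] at hi
      rw [add_right_comm (2 : ℝ)] at hi
      have := key β α κ _ _ _ hα (hnn (γ i)) hi
      rw [add_comm (β * _)] at this
      linarith
  refine ⟨hlines, fun γ ⟨hinj, hadj, hgeo⟩ α β κ hab N => ⟨?_, ?_⟩⟩
  · have hray : IsRay ω fun k : ℕ => γ k :=
      ⟨fun i j h => by exact_mod_cast hinj h, fun k => by simpa using hadj k,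
        fun i m => by simpa using hgeo i m⟩
    obtain ⟨i, hi, hi'⟩ := frequently_atTop.1 (hlines _ hray α β κ hab) N
    exact ⟨i, by exact_mod_cast hi, hi'⟩
  · have hray : IsRay ω fun k : ℕ => γ (-(k : ℤ)) := by
      refine ⟨fun i j h => by have := hinj h; omega, fun k => ?_, fun i m => ?_⟩
      · have h := (hadj (-((k + 1 : ℕ) : ℤ))).symm
        rwa [show -((k + 1 : ℕ) : ℤ) + 1 = -(k : ℤ) by push_cast; ring] at h
      · refine Geo.congr (hgeo (-((i + m : ℕ) : ℤ)) m).rev fun k hk => ?_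
        simp only [Tube.rev]
        congr 1
        omega
    obtain ⟨i, hi, hi'⟩ := frequently_atTop.1 (hlines _ hray α β κ hab) N
    exact ⟨-(i : ℤ), by omega, hi'⟩

end Vale.Agent.P158.Power
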