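import Vale.Agent.P158.Power.Block
import Vale.Agent.P158.Tube.Main

/-! Every tube of power width at scale `n` has a block without geodesic crossing. -/

noncomputable section

namespace Vale.Agent.P158.Power

open Finset MeasureTheory ProbabilityTheory Filter Topology Real Vale.Agent.P158.Tube
open scoped Classical ENNReal

/-- Half width at scale `n`. -/
def pwid (γ θ : ℝ) (n : ℕ) : ℕ := ⌊(γ * (n / log n)) ^ θ⌋₊

theorem disjoint_nsupp {g : ℤ → ℤ} {L w : ℕ} {x y : ℤ} (h : x + L < y) :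
    Disjoint (nsupp g x L w) (nsupp g y L w) := by
  rw [Finset.disjoint_left]
  intro e h1 h2
  induction e using Sym2.ind with
  | _ u v =>
    have a := nsupp_fst h1 (Sym2.mem_mk_left u v)
    have b := nsupp_fst h2 (Sym2.mem_mk_left u v)
    omega

/-- The block estimates at width `w`. -/
theorem block_facts (G : Measure ℝ) [IsProbabilityMeasure G] (hG : G (Set.Iio 0) = 0)
    {α a b : ℝ} (h0 : 0 < α) (hab : b < a) (hq : G (Set.Iic a) ≤ (1 / 16) ^ 2)
    (hp : 0 < G (Set.Iic b)) (hint' : ∫⁻ x, ENNReal.ofReal (max x 0 ^ α) ∂G ≠ ∞) {η K₀ K e : ℝ}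
    (hηdef : η = 1 / (32 * exp (48 / G.real (Set.Iic b))))
    (hK₀def : K₀ = 20 * ((∫⁻ x, ENNReal.ofReal (max x 0 ^ α) ∂G).toReal + 1) / η)
    (hedef : e = 1 + 2 / α) (hK256 : 256 ≤ K)
    (hKsq : (256 * K₀ ^ (1 / α) / (a - b)) ^ 2 ≤ K) {w : ℕ} (hw1 : 1 ≤ w) :
    (∀ g x₀, η / 2 ≤ (law G).real (nice g x₀ ⌈K * (w : ℝ) ^ e⌉₊ w α (K₀ * w)
        ((a - b) * sqrt ((⌈K * (w : ℝ) ^ e⌉₊ : ℝ) / w) / 64))) ∧
      0 < (a - b) * sqrt ((⌈K * (w : ℝ) ^ e⌉₊ : ℝ) / w) / 64 ∧
      4 * (K₀ * w) ^ (1 / α) ≤ (a - b) * sqrt ((⌈K * (w : ℝ) ^ e⌉₊ : ℝ) / w) / 64 ∧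
      1 ≤ ⌈K * (w : ℝ) ^ e⌉₊ := by
  set p := G.real (Set.Iic b) with hpdef
  have hp' : 0 < p := ENNReal.toReal_pos hp.ne' (measure_ne_top _ _)
  set μ := (∫⁻ x, ENNReal.ofReal (max x 0 ^ α) ∂G).toReal with hμdef
  have hμ : 0 ≤ μ := ENNReal.toReal_nonneg
  have hη : 0 < η := by rw [hηdef]; positivity
  have hK₀ : 0 < K₀ := by rw [hK₀def]; positivity
  have hK : 0 < K := by linarith
  have he1 : 1 ≤ e := by rw [hedef]; linarith [div_pos two_pos h0]
  have hw : (1 : ℝ) ≤ w := by exact_mod_cast hw1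
  have hwe1 : (w : ℝ) ≤ (w : ℝ) ^ e := by
    conv_lhs => rw [← rpow_one (w : ℝ)]
    exact rpow_le_rpow_of_exponent_le hw he1
  set L := ⌈K * (w : ℝ) ^ e⌉₊ with hLdef
  have hL1 : K * (w : ℝ) ^ e ≤ L := Nat.le_ceil _
  have hL2 : (L : ℝ) < K * (w : ℝ) ^ e + 1 := Nat.ceil_lt_add_one (by positivity)
  have hwLR : 256 * (w : ℝ) ≤ L := by linarith [mul_le_mul hK256 hwe1 (by linarith : (0 : ℝ) ≤ (w : ℝ)) hK.le]
  have hL40 : 40 ≤ L := by
    have : (40 : ℝ) ≤ L := by linarith
    exact_mod_cast this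
  have hwL : w ≤ L := by
    have : (w : ℝ) ≤ L := by linarith
    exact_mod_cast this
  have hLpos : (0 : ℝ) < L := by linarith
  set S := sqrt ((L : ℝ) / w) with hSdef
  have hS16 : 16 ≤ S := by
    rw [hSdef, le_sqrt (by norm_num) (by positivity), le_div_iff₀ (by positivity)]
    linarith
  have hSK : sqrt K * (w : ℝ) ^ (1 / α) ≤ S := by
    have e1 : ((w : ℝ) ^ (1 / α)) ^ 2 * w = (w : ℝ) ^ e := by
      rw [← rpow_natCast, ← rpow_mul (by positivity), ← rpow_add_one (by linarith)]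
      congr 1; rw [hedef]; push_cast; ring
    rw [hSdef, le_sqrt (by positivity) (by positivity), mul_pow, sq_sqrt hK.le,
      le_div_iff₀ (by positivity), mul_assoc, e1]
    exact hL1
  set ε : ℝ := 1 / sqrt (w * L) with hεdef
  have hεpos : 0 ≤ ε := by positivity
  have hεsq : ε ^ 2 = 1 / (w * L) := by rw [hεdef, div_pow, one_pow, sq_sqrt (by positivity)]
  have hε1 : ε ≤ 1 := by
    rw [hεdef, div_le_one (by positivity)]
    exact one_le_sqrt.2 (one_le_mul_of_one_le_of_one_le hw (by linarith))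
  have hεL : ε * L = S := by
    rw [hεdef, hSdef, sqrt_mul (by positivity), sqrt_div (by positivity)]
    field_simp
    rw [sq_sqrt hLpos.le]
  set t := ⌊S / 16⌋₊ with htdef
  have ht1 : (t : ℝ) ≤ S / 16 := Nat.floor_le (by positivity)
  have ht2 : S / 32 ≤ t := by
    have h3 := Nat.lt_floor_add_one (S / 16)
    rw [← htdef] at h3
    have h4 : (1 : ℝ) ≤ t := by exact_mod_cast Nat.le_floor (a := S / 16) (n := 1) (by push_cast; linarith)
    linarith
  have hlog2 : log (2 : ℝ) ≤ 1 := by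
    have := log_le_sub_one_of_pos (show (0 : ℝ) < 2 by norm_num); linarith
  have ht : (t : ℝ) * log 2 + 2 ≤ ε * (L / 2 : ℕ) / 2 := by
    have hh : (L : ℝ) ≤ 2 * ((L / 2 : ℕ) : ℝ) + 1 := by exact_mod_cast (by omega : L ≤ 2 * (L / 2) + 1)
    have := mul_le_mul_of_nonneg_left hh hεpos
    have := mul_le_mul_of_nonneg_left hlog2 (Nat.cast_nonneg (α := ℝ) t)
    linarith
  have hhpos : 0 < (a - b) * S / 64 := by
    have : 0 < a - b := by linarith
    positivity
  have hh : 2 * ((a - b) * S / 64) ≤ (a - b) * t := by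
    have := mul_le_mul_of_nonneg_left ht2 (by linarith : 0 ≤ a - b)
    linarith
  refine ⟨fun g x₀ => ?_, hhpos, ?_, by omega⟩
  · have hcard : ((edges (g) x₀ L w).card : ℝ) ≤ 24 * L * w := by
      refine le_trans (Nat.cast_le.2 card_edges_le) ?_
      push_cast
      have : ((L : ℝ) + 1) * (2 * w + 1) ≤ (2 * L) * (3 * w) :=
        mul_le_mul (by linarith) (by linarith) (by linarith) (by linarith)
      linarith
    refine law_nice_ge hab hp hεpos hε1 hwL hL40 hq ht hh hhpos hG hη ?_ (by positivity) hint' ?_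
    · have : exp (2 * ε ^ 2 / p) ^ (edges (g) x₀ L w).card ≤ exp (48 / p) := by
        rw [← exp_nat_mul, exp_le_exp, mul_div_assoc', hεsq]
        refine (div_le_div_iff_of_pos_right hp').2 ?_
        rw [← mul_assoc, mul_one_div, div_le_iff₀ (by positivity)]
        linarith
      rw [hηdef, div_mul_eq_mul_div, one_mul, div_le_one (by positivity)]
      exact mul_le_mul_of_nonneg_left this (by norm_num)
    · rw [← hμdef, hK₀def]
      push_cast
      field_simp
      linarith [mul_le_mul_of_nonneg_left hw hμ]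
  · rw [mul_rpow hK₀.le (by positivity)]
    have h2 : 256 * K₀ ^ (1 / α) / (a - b) ≤ sqrt K := le_sqrt_of_sq_le hKsq
    rw [div_le_iff₀ (by linarith)] at h2
    have h3 := mul_le_mul_of_nonneg_right h2 (rpow_nonneg (Nat.cast_nonneg (α := ℝ) w) (1 / α))
    have h4 := mul_le_mul_of_nonneg_left hSK (by linarith : 0 ≤ a - b)
    linarith

theorem eventually_no_crossing (G : Measure ℝ) [IsProbabilityMeasure G] [NullSingletonClass G]
    (hG : G (Set.Iio 0) = 0) {α : ℝ} (h0 : 0 < α) (h1 : α ≤ 1)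
    (hint : ∫⁻ x, ENNReal.ofReal (x ^ α) ∂G ≠ ∞) :
    ∃ γ : ℝ, 0 < γ ∧ ∀ᵐ ω ∂law G, ∀ᶠ n : ℕ in atTop, ∀ a b : ℤ, |a| ≤ n → |b| ≤ n → ∀ side,
      ∃ (x₀ : ℤ) (L : ℕ), 1 ≤ L ∧ base n side ≤ x₀ ∧ x₀ + L ≤ base n side + n ∧
        ∀ (p : ℕ → V) (m : ℕ), IsWalk p m → Set.InjOn p (Set.Iic m) → Geo ω p m →
          (p 0).1 = x₀ → (p m).1 = x₀ + L → (∀ k ≤ m, 0 < k → x₀ < (p k).1) →
          (∀ k < m, (p k).1 < x₀ + L) →
          (∀ k ≤ m, |(p k).2 - gline n a b (p k).1| ≤ pwid γ (α / (α + 2)) n) → False := by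
  obtain ⟨r, δ, hr, hδ, -, hq, hp, -⟩ :
      ∃ r δ : ℝ, 0 ≤ r ∧ 0 < δ ∧ G (Set.Iio r) = 0 ∧ G (Set.Iic (r + 2 * δ)) ≤ (1 / 16) ^ 2 ∧
        0 < G (Set.Iic (r + δ / 2)) ∧ True := by
    obtain ⟨r, δ, u1, u2, u3, u4, u5, -⟩ := exists_levels G hG
    exact ⟨r, δ, u1, u2, u3, u4, u5, trivial⟩
  set a := r + 2 * δ with ha
  set b := r + δ / 2 with hb
  have hab : b < a := by rw [ha, hb]; linarith
  set p := G.real (Set.Iic b) with hpdef
  have hp' : 0 < p := ENNReal.toReal_pos hp.ne' (measure_ne_top _ _)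
  have hae0 : ∀ᵐ x ∂G, (0 : ℝ) ≤ x := by
    rw [ae_iff]; simpa [Set.Iio] using hG
  have hint' : ∫⁻ x, ENNReal.ofReal (max x 0 ^ α) ∂G ≠ ∞ := by
    rwa [lintegral_congr_ae (g := fun x => ENNReal.ofReal (x ^ α))]
    filter_upwards [hae0] with x hx
    rw [max_eq_left hx]
  set μ := (∫⁻ x, ENNReal.ofReal (max x 0 ^ α) ∂G).toReal with hμdef
  have hμ : 0 ≤ μ := ENNReal.toReal_nonneg
  set η : ℝ := 1 / (32 * exp (48 / p)) with hηdef
  have hη : 0 < η := by positivity
  have hη1 : η ≤ 1 := by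
    rw [hηdef, div_le_one (by positivity)]
    linarith [one_le_exp (by positivity : 0 ≤ 48 / p)]
  set K₀ : ℝ := 20 * (μ + 1) / η with hK₀def
  have hK₀ : 0 < K₀ := by positivity
  set e : ℝ := 1 + 2 / α with hedef
  set K : ℝ := max ((256 * K₀ ^ (1 / α) / (a - b)) ^ 2) 256 with hKdef
  have hK256 : 256 ≤ K := le_max_right _ _
  have hK : 0 < K := by linarith
  set γ : ℝ := η / (44 * K) with hγdef
  have hγ : 0 < γ := by positivity
  set θ : ℝ := α / (α + 2) with hθdef
  have hθ : 0 < θ := by positivity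
  have hθe : θ * e = 1 := by rw [hθdef, hedef]; field_simp
  refine ⟨γ, hγ, ?_⟩
  let Lf : ℕ → ℕ := fun n => ⌈K * (pwid γ θ n : ℝ) ^ e⌉₊
  let hf : ℕ → ℝ := fun n => (a - b) * sqrt ((Lf n : ℝ) / pwid γ θ n) / 64
  let ev : ℕ → ℤ → ℤ → Bool → ℕ → Set (Sym2 V → ℝ) := fun n u v side k =>
    nice (gline n u v) (base n side + k * (Lf n + 1 : ℕ)) (Lf n) (pwid γ θ n) α
      (K₀ * pwid γ θ n) (hf n)
  let F : ℕ → Set (Sym2 V → ℝ) := fun n =>
    ⋃ u ∈ Finset.Icc (-(n : ℤ)) n, ⋃ v ∈ Finset.Icc (-(n : ℤ)) n, ⋃ side : Bool,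
      {ω | ∀ k < n / (Lf n + 1), ω ∉ ev n u v side k}
  have hX : Tendsto (fun n : ℕ => (n : ℝ) / log n) atTop atTop := by
    refine tendsto_atTop.2 fun B => ?_
    have h := isLittleO_log_id_atTop.bound (show (0 : ℝ) < 1 / (|B| + 1) by positivity)
    filter_upwards [(tendsto_natCast_atTop_atTop (R := ℝ)).eventually h, eventually_ge_atTop 2]
      with n hn hn2
    have hn2' : (2 : ℝ) ≤ n := by exact_mod_cast hn2
    have hl : 0 < log (n : ℝ) := log_pos (by linarith)
    rw [norm_of_nonneg hl.le, id, norm_of_nonneg (by positivity), div_mul_eq_mul_div, one_mul,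
      le_div_iff₀ (by positivity)] at hn
    rw [le_div_iff₀ hl]
    have := le_abs_self B
    have := le_abs_self B
    have : B * log (n : ℝ) ≤ (|B| + 1) * log n := mul_le_mul_of_nonneg_right (by linarith) hl.le
    linarith
  have hreg : ∀ᶠ n : ℕ in atTop, 1 ≤ pwid γ θ n ∧ 1 ≤ n ∧
      (∀ u v x₀, η / 2 ≤ (law G).real
        (nice (gline n u v) x₀ (Lf n) (pwid γ θ n) α (K₀ * pwid γ θ n) (hf n))) ∧
      0 < hf n ∧ 4 * (K₀ * pwid γ θ n) ^ (1 / α) ≤ hf n ∧ 1 ≤ Lf n ∧
      10 * log n / η ≤ (n / (Lf n + 1) : ℕ) ∧ 18 * (n : ℝ) ^ 4 * exp (-(5 * log n)) ≤ 1 := by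
    filter_upwards [hX.eventually_ge_atTop (1 / γ), hX.eventually_ge_atTop (2 / (K * γ)),
      (tendsto_log_atTop.comp tendsto_natCast_atTop_atTop).eventually_ge_atTop η,
      eventually_ge_atTop 18] with n hX1 hX2 hlog hn18
    set X := (n : ℝ) / log n with hXdef
    have hn : (18 : ℝ) ≤ n := by exact_mod_cast hn18
    have hln : 0 < log (n : ℝ) := log_pos (by linarith)
    have hXpos : 0 ≤ γ * X := by positivity
    have hγX : 1 ≤ γ * X := by rw [div_le_iff₀ hγ] at hX1; linarith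
    set w := pwid γ θ n with hwdef
    have hw1 : 1 ≤ w := Nat.le_floor (by push_cast; exact one_le_rpow hγX hθ.le)
    have hw : (1 : ℝ) ≤ w := by exact_mod_cast hw1
    have hwle : (w : ℝ) ≤ (γ * X) ^ θ := Nat.floor_le (by positivity)
    have hwe : (w : ℝ) ^ e ≤ γ * X := by
      calc (w : ℝ) ^ e ≤ ((γ * X) ^ θ) ^ e :=
            rpow_le_rpow (by positivity) hwle (by positivity)
        _ = _ := by rw [← rpow_mul hXpos, hθe, rpow_one]
    obtain ⟨hnice, hhpos, hh, hL1'⟩ := block_facts G hG h0 hab hq hp hint' hηdef hK₀def hedef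
      hK256 (le_max_left _ _) hw1
    set L := Lf n with hLdef
    have hL2 : (L : ℝ) < K * (w : ℝ) ^ e + 1 := Nat.ceil_lt_add_one (by positivity)
    refine ⟨hw1, by omega, fun u v x₀ => hnice _ x₀, hhpos, hh, hL1', ?_, ?_⟩
    · have hd : n < (n / (L + 1) + 1) * (L + 1) := by
        rw [mul_comm]; exact Nat.lt_mul_div_succ n (by omega)
      have hd' : (n : ℝ) ≤ (((n / (L + 1) : ℕ) : ℝ) + 1) * ((L : ℝ) + 1) := by exact_mod_cast hd.le
      rw [div_le_iff₀ (by positivity)] at hX2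
      have hLb : (L : ℝ) + 1 ≤ 2 * (K * γ) * X := by
        have := mul_le_mul_of_nonneg_left hwe hK.le
        linarith
      set M := ((n / (L + 1) : ℕ) : ℝ)
      have hMn : (n : ℝ) ≤ (M + 1) * (η / 22 * X) := by
        refine hd'.trans (mul_le_mul_of_nonneg_left (hLb.trans_eq ?_) (by positivity))
        rw [hγdef]; field_simp; ring
      have hM : 22 * log n / η ≤ M + 1 := by
        rw [div_le_iff₀ hη]
        rw [hXdef] at hMn
        have : (n : ℝ) * (22 * log n) ≤ (M + 1) * η * n := by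
          have := mul_le_mul_of_nonneg_right hMn (by positivity : 0 ≤ 22 * log (n : ℝ))
          calc _ ≤ _ := this
            _ = _ := by field_simp
        exact le_of_mul_le_mul_left (by linarith) (show (0 : ℝ) < n by linarith)
      have h3 : 1 ≤ log n / η := by rw [one_le_div hη]; exact hlog
      have h4 : 22 * log n / η = 10 * log n / η + 12 * (log n / η) := by ring
      linarith
    · have hpow : exp (-(5 * log (n : ℝ))) = ((n : ℝ) ^ 5)⁻¹ := by
        rw [exp_neg, show (5 : ℝ) * log n = ((5 : ℕ) : ℝ) * log n by norm_num, exp_nat_mul,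
          exp_log (by linarith)]
      rw [hpow, ← div_eq_mul_inv, div_le_one (by positivity)]
      have h5 : (18 : ℝ) * (n : ℝ) ^ 4 ≤ n * (n : ℝ) ^ 4 :=
        mul_le_mul_of_nonneg_right hn (by positivity)
      calc _ ≤ _ := h5
        _ = _ := by ring
  have hF : ∀ᶠ n : ℕ in atTop, law G (F n) ≤ ENNReal.ofReal (1 / (n : ℝ) ^ 2) := by
    filter_upwards [hreg] with n hn'
    obtain ⟨-, hn1, hnice, -, -, -, hM, he⟩ := hn'
    have hone : ∀ u v : ℤ, ∀ side, law G {ω | ∀ k < n / (Lf n + 1), ω ∉ ev n u v side k} ≤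
        ENNReal.ofReal (exp (-(5 * log n))) := fun u v side => by
      refine (law_forall_not_le G
        (fun k => nsupp (gline n u v) (base n side + k * (Lf n + 1 : ℕ)) (Lf n) (pwid γ θ n)) _ _ ?_
        (fun k _ => measurableSet_nice _ _ _) (fun k _ => determined_nice _ _ _)
        (ρ := ENNReal.ofReal (η / 2)) fun k _ => ?_).trans ?_
      · intro i _ j _ hij
        have key : ∀ i j : ℕ, i < j → Disjoint
            (nsupp (gline n u v) (base n side + i * (Lf n + 1 : ℕ)) (Lf n) (pwid γ θ n))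
            (nsupp (gline n u v) (base n side + j * (Lf n + 1 : ℕ)) (Lf n) (pwid γ θ n)) :=
          fun i j hlt => disjoint_nsupp (by
            have hh : ((i : ℤ) + 1) ≤ j := by exact_mod_cast hlt
            push_cast
            have := mul_le_mul_of_nonneg_right hh (by positivity : (0 : ℤ) ≤ (Lf n : ℤ) + 1)
            linarith)
        rcases hij.lt_or_gt with h | h
        exacts [key i j h, (key j i h).symm]
      · rw [← ofReal_measureReal (μ := law G) (s := ev n u v side k)]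
        exact ENNReal.ofReal_le_ofReal (hnice _ _ _)
      · rw [← ENNReal.ofReal_one, ← ENNReal.ofReal_sub _ (by linarith),
          ← ENNReal.ofReal_pow (by linarith)]
        refine ENNReal.ofReal_le_ofReal ?_
        calc (1 - η / 2) ^ (n / (Lf n + 1)) ≤ exp (-(η / 2)) ^ (n / (Lf n + 1)) :=
              pow_le_pow_left₀ (by linarith) (one_sub_le_exp_neg _) _
          _ ≤ _ := by
              rw [← exp_nat_mul, exp_le_exp]
              rw [div_le_iff₀ hη] at hM
              linarith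
    calc law G (F n) ≤ ∑ _a ∈ Finset.Icc (-(n : ℤ)) n, ∑ _b ∈ Finset.Icc (-(n : ℤ)) n,
          ∑ _side : Bool, ENNReal.ofReal (exp (-(5 * log n))) := by
          refine (measure_biUnion_finset_le _ _).trans (Finset.sum_le_sum fun u _ => ?_)
          refine (measure_biUnion_finset_le _ _).trans (Finset.sum_le_sum fun v _ => ?_)
          exact (measure_iUnion_fintype_le _ _).trans (Finset.sum_le_sum fun side _ => hone u v side)
      _ = ((2 * n + 1) * ((2 * n + 1) * 2) : ℕ) * ENNReal.ofReal (exp (-(5 * log n))) := by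
          simp only [Finset.sum_const, Finset.card_univ, Fintype.card_bool, Int.card_Icc,
            nsmul_eq_mul]
          rw [show ((n : ℤ) + 1 - -(n : ℤ)).toNat = 2 * n + 1 by omega]
          push_cast
          ring
      _ ≤ ENNReal.ofReal (1 / (n : ℝ) ^ 2) := by
          rw [← ENNReal.ofReal_natCast, ← ENNReal.ofReal_mul (by positivity)]
          refine ENNReal.ofReal_le_ofReal ?_
          have hn : (1 : ℝ) ≤ n := by exact_mod_cast hn1
          rw [le_div_iff₀ (by positivity)]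
          push_cast
          refine le_trans ?_ he
          have h18 : (2 * (n : ℝ) + 1) * ((2 * n + 1) * 2) ≤ 18 * (n : ℝ) ^ 2 := by
            calc _ ≤ (3 * (n : ℝ)) * ((3 * n) * 2) := by gcongr <;> linarith
              _ = _ := by ring
          calc _ ≤ 18 * (n : ℝ) ^ 2 * exp (-(5 * log n)) * n ^ 2 := by gcongr
            _ = _ := by ring
  obtain ⟨N, hN⟩ := eventually_atTop.1 hF
  have hfin : ∑' m : ℕ, law G (F (m + N)) ≠ ∞ := by
    refine ne_top_of_le_ne_top ?_ (ENNReal.tsum_le_tsum fun m => hN (m + N) (by omega))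
    exact (ENNReal.ofReal_tsum_of_nonneg (fun m => by positivity)
      ((summable_nat_add_iff N).2 (Real.summable_one_div_nat_pow.2 one_lt_two))) ▸
        ENNReal.ofReal_ne_top
  have hnn : ∀ᵐ ω ∂law G, ∀ i, 0 ≤ ω i := ae_all_iff.2 fun i =>
    (measurePreserving_eval_infinitePi (fun _ : Sym2 V => G) i).quasiMeasurePreserving.ae hae0
  filter_upwards [ae_eventually_notMem hfin, hnn] with ω hω hω0
  obtain ⟨N', hN'⟩ := eventually_atTop.1 hω
  filter_upwards [eventually_ge_atTop (N' + N), hreg] with n hn hn' u v hu hv side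
  obtain ⟨-, -, -, hhpos, hh, hL1, -, -⟩ := hn'
  have h := hN' (n - N) (by omega)
  rw [Nat.sub_add_cancel (by omega)] at h
  obtain ⟨k, hk, hnice⟩ : ∃ k < n / (Lf n + 1), ω ∈ ev n u v side k := by
    by_contra hcon
    push Not at hcon
    rw [abs_le] at hu hv
    exact h (Set.mem_biUnion (Finset.mem_Icc.2 hu)
      (Set.mem_biUnion (Finset.mem_Icc.2 hv) (Set.mem_iUnion.2 ⟨side, hcon⟩)))
  refine ⟨base n side + k * (Lf n + 1 : ℕ), Lf n, hL1, by simp, ?_,
    fun p m h2 h3 h4 h5 h6 h7 h8 h9 =>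
      no_crossing h0 h1 hhpos hh hL1 hω0 hnice h2 h3 h4 h5 h6 h7 h8 h9⟩
  have h10 : (k + 1) * (Lf n + 1) ≤ n :=
    le_trans (Nat.mul_le_mul_right _ hk) (Nat.div_mul_le_self n _)
  zify at h10
  push_cast at h10 ⊢
  linarith

end Vale.Agent.P158.Power
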