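import Mathlib

/-! Lowering a random set of large weights of a finite product measure: a change of measure. -/

noncomputable section

namespace Vale.Agent.P158.Power

open Finset MeasureTheory ProbabilityTheory Real
open scoped Classical ENNReal

/-- Replace a weight above `a` by the proposal, when the proposal is at most `b`. -/
def lower (a b : ℝ) (q : ℝ × ℝ) : ℝ := if a < q.1 ∧ q.2 ≤ b then q.2 else q.1

theorem measurable_lower (a b : ℝ) : Measurable (lower a b) :=
  Measurable.ite ((measurableSet_lt measurable_const measurable_fst).inter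
    (measurableSet_le measurable_snd measurable_const)) measurable_snd measurable_fst

theorem lintegral_pi_prod {ι : Type*} [Fintype ι] {X : Type*} [MeasurableSpace X] (μ : Measure X)
    [IsProbabilityMeasure μ] {f : ι → X → ℝ≥0∞} (hf : ∀ i, Measurable (f i)) :
    ∫⁻ x, ∏ i, f i (x i) ∂(Measure.pi fun _ : ι => μ) = ∏ i, ∫⁻ y, f i y ∂μ := by
  rw [lintegral_prod_eq_prod_lintegral_of_indepFun (μ := Measure.pi fun _ : ι => μ) Finset.univ
    (fun i x => f i (x i)) (iIndepFun_pi fun i => (hf i).aemeasurable)
    fun i => (hf i).comp (measurable_pi_apply i)]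
  refine Finset.prod_congr rfl fun i _ => ?_
  rw [← lintegral_map (hf i) (measurable_pi_apply i), (measurePreserving_eval _ i).map_eq]

theorem pi_withDensity {ι : Type*} [Fintype ι] {X : Type*} [MeasurableSpace X] (μ : Measure X)
    [IsProbabilityMeasure μ] {f : X → ℝ≥0∞} (hf : Measurable f)
    [IsFiniteMeasure (μ.withDensity f)] :
    Measure.pi (fun _ : ι => μ.withDensity f) =
      (Measure.pi fun _ : ι => μ).withDensity fun x => ∏ i, f (x i) := by
  refine Measure.pi_eq fun s hs => ?_
  rw [withDensity_apply _ (MeasurableSet.univ_pi hs), ← lintegral_indicator (MeasurableSet.univ_pi hs)]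
  have e : ∀ x : ι → X, (Set.univ.pi s).indicator (fun x => ∏ i, f (x i)) x =
      ∏ i, (s i).indicator f (x i) := fun x => by
    by_cases h : ∀ i, x i ∈ s i
    · rw [Set.indicator_of_mem (by simpa using h)]
      exact Finset.prod_congr rfl fun i _ => (Set.indicator_of_mem (h i) f).symm
    · rw [Set.indicator_of_notMem (by simpa using h)]
      push Not at h
      obtain ⟨i, hi⟩ := h
      exact (Finset.prod_eq_zero (Finset.mem_univ i) (Set.indicator_of_notMem hi f)).symm
  simp_rw [e]
  rw [lintegral_pi_prod μ fun i => hf.indicator (hs i)]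
  refine Finset.prod_congr rfl fun i _ => ?_
  rw [withDensity_apply _ (hs i), lintegral_indicator (hs i)]

variable (G : Measure ℝ) [IsProbabilityMeasure G] (a b ε : ℝ)

/-- The law of a proposal. -/
def prop' : Measure ℝ :=
  ENNReal.ofReal (1 - ε) • Measure.dirac a +
    (ENNReal.ofReal ε * (G (Set.Iic b))⁻¹) • G.restrict (Set.Iic b)

/-- The density of a lowered weight. -/
def dens (x : ℝ) : ℝ :=
  1 - ε * (Set.Ioi a).indicator 1 x + ε * G.real (Set.Ioi a) / G.real (Set.Iic b) *
    (Set.Iic b).indicator 1 x

variable {G a b ε}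

theorem isProbability_prop' (hb : 0 < G (Set.Iic b)) (h0 : 0 ≤ ε) (h1 : ε ≤ 1) :
    IsProbabilityMeasure (prop' G a b ε) := by
  refine ⟨?_⟩
  simp only [prop', Measure.add_apply, Measure.smul_apply, measure_univ, smul_eq_mul,
    Measure.restrict_apply MeasurableSet.univ, Set.univ_inter, mul_one]
  rw [mul_assoc, ENNReal.inv_mul_cancel hb.ne' (measure_ne_top _ _), mul_one,
    ← ENNReal.ofReal_add (by linarith) h0, sub_add_cancel, ENNReal.ofReal_one]

theorem prop'_Iic (hab : b < a) (hb : 0 < G (Set.Iic b)) :
    prop' G a b ε (Set.Iic b) = ENNReal.ofReal ε := by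
  simp only [prop', Measure.add_apply, Measure.smul_apply, smul_eq_mul,
    Measure.restrict_apply measurableSet_Iic, Set.inter_self, Measure.dirac_apply' _ measurableSet_Iic]
  rw [Set.indicator_of_notMem (by simpa using hab), mul_zero, zero_add, mul_assoc,
    ENNReal.inv_mul_cancel hb.ne' (measure_ne_top _ _), mul_one]

theorem measurable_dens : Measurable (dens G a b ε) := by
  refine ((measurable_const.sub (((measurable_const (a := (1 : ℝ))).indicator
    measurableSet_Ioi).const_mul ε))).add
      (((measurable_const (a := (1 : ℝ))).indicator measurableSet_Iic).const_mul _)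

theorem dens_nonneg (h0 : 0 ≤ ε) (h1 : ε ≤ 1) (x : ℝ) : 0 ≤ dens G a b ε x := by
  have := measureReal_nonneg (μ := G) (s := Set.Ioi a)
  have := measureReal_nonneg (μ := G) (s := Set.Iic b)
  have h2 : 0 ≤ ε * G.real (Set.Ioi a) / G.real (Set.Iic b) * (Set.Iic b).indicator 1 x :=
    mul_nonneg (by positivity) (Set.indicator_nonneg (fun _ _ => zero_le_one) _)
  unfold dens
  by_cases hx : x ∈ Set.Ioi a
  · rw [Set.indicator_of_mem hx]; simp; linarith
  · rw [Set.indicator_of_notMem hx]; simp; linarith

theorem map_lower (hab : b < a) (hb : 0 < G (Set.Iic b)) (h0 : 0 ≤ ε) (h1 : ε ≤ 1) :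
    (G.prod (prop' G a b ε)).map (lower a b) =
      G.withDensity fun x => ENNReal.ofReal (dens G a b ε x) := by
  have := isProbability_prop' (a := a) hb h0 h1
  have hd : Integrable (dens G a b ε) G := by
    unfold dens
    exact ((integrable_const 1).sub (((integrable_const (1 : ℝ)).indicator
      measurableSet_Ioi).const_mul ε)).add
        (((integrable_const (1 : ℝ)).indicator measurableSet_Iic).const_mul _)
  ext S hS
  rw [Measure.map_apply (measurable_lower a b) hS, withDensity_apply _ hS,
    Measure.prod_apply (measurable_lower a b hS),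
    ← ofReal_integral_eq_lintegral_ofReal hd.integrableOn (ae_of_all _ (dens_nonneg h0 h1))]
  set p := G.real (Set.Iic b) with hpdef
  have hp : 0 < p := ENNReal.toReal_pos hb.ne' (measure_ne_top _ _)
  have hsec : ∀ x, prop' G a b ε (Prod.mk x ⁻¹' (lower a b ⁻¹' S)) = ENNReal.ofReal
      ((1 - ε * (Set.Ioi a).indicator 1 x) * S.indicator 1 x +
        ε / p * G.real (S ∩ Set.Iic b) * (Set.Ioi a).indicator 1 x) := fun x => by
    by_cases hx : x ∈ Set.Ioi a
    · have e : Prod.mk x ⁻¹' (lower a b ⁻¹' S) =
          (S ∩ Set.Iic b) ∪ (if x ∈ S then (Set.Iic b)ᶜ else ∅) := by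
        ext y
        simp only [Set.mem_preimage, lower, Set.mem_Ioi.1 hx, true_and, Set.mem_union, Set.mem_inter_iff,
          Set.mem_Iic]
        by_cases hy : y ≤ b <;> by_cases hxS : x ∈ S <;> simp [hy, hxS]
        exact not_le.1 hy
      rw [e, Set.indicator_of_mem hx]
      simp only [prop', Measure.add_apply, Measure.smul_apply, smul_eq_mul, Pi.one_apply]
      have hm : MeasurableSet (S ∩ Set.Iic b ∪ if x ∈ S then (Set.Iic b)ᶜ else ∅) := by
        refine (hS.inter measurableSet_Iic).union ?_
        split_ifs; exacts [measurableSet_Iic.compl, MeasurableSet.empty]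
      rw [Measure.dirac_apply' _ hm, Measure.restrict_apply hm]
      have e2 : (S ∩ Set.Iic b ∪ if x ∈ S then (Set.Iic b)ᶜ else ∅) ∩ Set.Iic b = S ∩ Set.Iic b := by
        ext y
        by_cases hxS : x ∈ S <;> simp [hxS]
        intro hy
        simp [hy, not_lt.2 hy]
      rw [e2]
      have ha : ¬ a ≤ b := not_le.2 hab
      have hG : ENNReal.ofReal ε * (G (Set.Iic b))⁻¹ * G (S ∩ Set.Iic b) =
          ENNReal.ofReal (ε / p * G.real (S ∩ Set.Iic b)) := by
        rw [ENNReal.ofReal_mul (by positivity), ofReal_measureReal,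
          ENNReal.ofReal_div_of_pos hp, hpdef, ofReal_measureReal, div_eq_mul_inv]
      rw [hG]
      by_cases hxS : x ∈ S
      · rw [Set.indicator_of_mem hxS, Set.indicator_of_mem (by simp [hxS, hab])]
        simp only [Pi.one_apply, mul_one]
        rw [ENNReal.ofReal_add (by linarith) (by positivity)]
      · rw [Set.indicator_of_notMem hxS, Set.indicator_of_notMem (by simp [hxS, hab])]
        simp
    · have e : Prod.mk x ⁻¹' (lower a b ⁻¹' S) = if x ∈ S then Set.univ else ∅ := by
        ext y
        have : ¬ a < x := hx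
        by_cases hxS : x ∈ S <;> simp [lower, this, hxS]
      rw [e, Set.indicator_of_notMem hx]
      by_cases hxS : x ∈ S <;> simp [hxS]
  simp_rw [hsec]
  have i1 : Integrable (fun x => (1 - ε * (Set.Ioi a).indicator 1 x) * S.indicator 1 x) G := by
    have : Integrable (fun x => S.indicator (1 : ℝ → ℝ) x -
        ε * (Set.Ioi a ∩ S).indicator 1 x) G :=
      ((integrable_const (1 : ℝ)).indicator hS).sub
        (((integrable_const (1 : ℝ)).indicator (measurableSet_Ioi.inter hS)).const_mul ε)
    refine this.congr (ae_of_all _ fun x => ?_)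
    simp only [Set.inter_indicator_one, Pi.mul_apply]
    ring
  have i2 : Integrable (fun x => ε / p * G.real (S ∩ Set.Iic b) * (Set.Ioi a).indicator 1 x) G :=
    ((integrable_const (1 : ℝ)).indicator measurableSet_Ioi).const_mul _
  have i12 : Integrable (fun x => (1 - ε * (Set.Ioi a).indicator 1 x) * S.indicator 1 x +
      ε / p * G.real (S ∩ Set.Iic b) * (Set.Ioi a).indicator 1 x) G := i1.add i2
  rw [← ofReal_integral_eq_lintegral_ofReal i12 (ae_of_all _ fun x => ?_)]
  · congr 1
    have e3 : ∀ x, dens G a b ε x * S.indicator 1 x =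
        (1 - ε * (Set.Ioi a).indicator 1 x) * S.indicator 1 x +
          ε * G.real (Set.Ioi a) / p * (Set.Iic b ∩ S).indicator 1 x := fun x => by
      simp only [dens, ← hpdef, Set.inter_indicator_one, Pi.mul_apply]; ring
    have e4 : ∀ x, S.indicator (dens G a b ε) x = dens G a b ε x * S.indicator 1 x := fun x => by
      by_cases h : x ∈ S <;> simp [h]
    rw [← integral_indicator hS]
    simp_rw [e4, e3]
    have i4 : Integrable (fun x => ε * G.real (Set.Ioi a) / p *
        (Set.Iic b ∩ S).indicator (1 : ℝ → ℝ) x) G :=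
      ((integrable_const (1 : ℝ)).indicator (measurableSet_Iic.inter hS)).const_mul _
    rw [integral_add i1 i2, integral_add i1 i4, integral_const_mul, integral_const_mul,
      integral_indicator_one measurableSet_Ioi,
      integral_indicator_one (measurableSet_Iic.inter hS), Set.inter_comm (Set.Iic b) S]
    ring
  · have : 0 ≤ ε / p * G.real (S ∩ Set.Iic b) * (Set.Ioi a).indicator 1 x :=
      mul_nonneg (by positivity) (Set.indicator_nonneg (fun _ _ => zero_le_one) _)
    have h2 : 0 ≤ (1 - ε * (Set.Ioi a).indicator 1 x) * S.indicator 1 x := by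
      refine mul_nonneg ?_ (Set.indicator_nonneg (fun _ _ => zero_le_one) _)
      by_cases hx : x ∈ Set.Ioi a
      · rw [Set.indicator_of_mem hx]; simp; linarith
      · rw [Set.indicator_of_notMem hx]; simp
    simp only [Pi.zero_apply, Pi.add_apply]
    linarith

theorem lintegral_dens_sq (hab : b < a) (hb : 0 < G (Set.Iic b)) (h0 : 0 ≤ ε) (h1 : ε ≤ 1) :
    ∫⁻ x, ENNReal.ofReal (dens G a b ε x) ^ 2 ∂G ≤
      ENNReal.ofReal (exp (2 * ε ^ 2 / G.real (Set.Iic b))) := by
  set p := G.real (Set.Iic b) with hpdef
  set P := G.real (Set.Ioi a) with hPdef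
  have hp : 0 < p := ENNReal.toReal_pos hb.ne' (measure_ne_top _ _)
  have hP : 0 ≤ P := measureReal_nonneg
  have hP1 : P ≤ 1 := measureReal_le_one
  have hp1 : p ≤ 1 := measureReal_le_one
  have e : ∀ x, dens G a b ε x ^ 2 = 1 + (ε ^ 2 - 2 * ε) * (Set.Ioi a).indicator 1 x +
      ((ε * P / p) ^ 2 + 2 * (ε * P / p)) * (Set.Iic b).indicator 1 x := fun x => by
    by_cases hx : x ∈ Set.Ioi a
    · have : x ∉ Set.Iic b := fun h => by simp at hx h; linarith
      simp only [dens, Set.indicator_of_mem hx, Set.indicator_of_notMem this, Pi.one_apply]; ring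
    · by_cases hy : x ∈ Set.Iic b <;>
        simp only [dens, Set.indicator_of_notMem hx, hy, Set.indicator_of_mem, Set.indicator_of_notMem,
          not_false_eq_true, Pi.one_apply, ← hPdef, ← hpdef] <;> ring
  have i1 : Integrable (fun x => (ε ^ 2 - 2 * ε) * (Set.Ioi a).indicator (1 : ℝ → ℝ) x) G :=
    ((integrable_const (1 : ℝ)).indicator measurableSet_Ioi).const_mul _
  have i2 : Integrable
      (fun x => ((ε * P / p) ^ 2 + 2 * (ε * P / p)) * (Set.Iic b).indicator (1 : ℝ → ℝ) x) G :=
    ((integrable_const (1 : ℝ)).indicator measurableSet_Iic).const_mul _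
  simp_rw [← ENNReal.ofReal_pow (dens_nonneg (G := G) h0 h1 _), e]
  have i3 : Integrable (fun x => 1 + (ε ^ 2 - 2 * ε) * (Set.Ioi a).indicator 1 x +
      ((ε * P / p) ^ 2 + 2 * (ε * P / p)) * (Set.Iic b).indicator 1 x) G :=
    ((integrable_const 1).add i1).add i2
  rw [← ofReal_integral_eq_lintegral_ofReal i3
    (ae_of_all _ fun x => by
      simp only [Pi.zero_apply]; rw [← e]; positivity)]
  refine ENNReal.ofReal_le_ofReal ?_
  rw [integral_add ?_ i2, integral_add (integrable_const 1) i1, integral_const_mul, integral_const_mul,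
    integral_indicator_one measurableSet_Ioi, integral_indicator_one measurableSet_Iic, integral_const,
    probReal_univ, one_smul, ← hPdef, ← hpdef]
  · refine le_trans ?_ (add_one_le_exp _)
    have h3 : P * p ≤ p := by nlinarith
    have h4 : ε ^ 2 * P * p + ε ^ 2 * P ^ 2 ≤ 2 * ε ^ 2 := by
      have : P * p ≤ 1 := by nlinarith
      have : P ^ 2 ≤ 1 := pow_le_one₀ hP hP1
      nlinarith [sq_nonneg ε]
    have e5 : 1 + (ε ^ 2 - 2 * ε) * P + ((ε * P / p) ^ 2 + 2 * (ε * P / p)) * p =
        (ε ^ 2 * P * p + ε ^ 2 * P ^ 2) / p + 1 := by field_simp; ring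
    rw [e5]
    exact add_le_add ((div_le_div_iff_of_pos_right hp).2 h4) le_rfl
  · exact (integrable_const 1).add i1

theorem lintegral_two_pow (hab : b < a) (hb : 0 < G (Set.Iic b)) (h0 : 0 ≤ ε) (h1 : ε ≤ 1) :
    ∫⁻ y, (if y ≤ b then 2⁻¹ else 1) ∂(prop' G a b ε) ≤ ENNReal.ofReal (exp (-ε / 2)) := by
  have := isProbability_prop' (a := a) hb h0 h1
  have e : ∀ y, (if y ≤ b then (2⁻¹ : ℝ≥0∞) else 1) =
      (Set.Iic b).indicator (fun _ => 2⁻¹) y + (Set.Iic b)ᶜ.indicator (fun _ => 1) y := fun y => by
    by_cases h : y ≤ b <;> simp [h]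
    simp [not_le.1 h]
  simp_rw [e]
  rw [lintegral_add_left (measurable_const.indicator measurableSet_Iic),
    lintegral_indicator_const measurableSet_Iic, lintegral_indicator_const measurableSet_Iic.compl,
    prob_compl_eq_one_sub measurableSet_Iic, prop'_Iic hab hb, one_mul,
    ← ENNReal.ofReal_one, ← ENNReal.ofReal_sub _ h0, ← ENNReal.ofReal_ofNat,
    ← ENNReal.ofReal_inv_of_pos two_pos, ← ENNReal.ofReal_mul (by norm_num),
    ← ENNReal.ofReal_add (by positivity) (by linarith)]
  refine ENNReal.ofReal_le_ofReal (le_trans (le_of_eq ?_) (add_one_le_exp _))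
  ring

/-- If lowering `h` of at least `M` large weights turns `A₀` into `A`, then `A` is not unlikely. -/
theorem tilt {ι : Type*} [Fintype ι] (hab : b < a) (hb : 0 < G (Set.Iic b)) (h0 : 0 ≤ ε)
    (h1 : ε ≤ 1) {M h : ℕ} (hh : (h : ℝ) * log 2 + 2 ≤ ε * M / 2) {A₀ A : Set (ι → ℝ)}
    (hA₀ : MeasurableSet A₀) (hA : MeasurableSet A)
    (hP : (3 / 8 : ℝ) ≤ (Measure.pi fun _ : ι => G).real A₀)
    (hyp : ∀ x ∈ A₀, ∃ J : Finset ι, M ≤ J.card ∧ (∀ i ∈ J, a < x i) ∧
      ∀ y : ι → ℝ, h ≤ (J.filter fun i => y i ≤ b).card → (fun i => lower a b (x i, y i)) ∈ A) :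
    1 / (16 * exp (2 * ε ^ 2 / G.real (Set.Iic b)) ^ Fintype.card ι) ≤
      (Measure.pi fun _ : ι => G).real A := by
  have := isProbability_prop' (a := a) hb h0 h1
  set μ := Measure.pi fun _ : ι => G
  set ρ' := Measure.pi fun _ : ι => prop' G a b ε
  set C := exp (2 * ε ^ 2 / G.real (Set.Iic b)) ^ Fintype.card ι with hCdef
  have hC : 0 < C := by positivity
  let Φ : (ι → ℝ) × (ι → ℝ) → ι → ℝ := fun q i => lower a b (q.1 i, q.2 i)
  have hΦ : Measurable Φ := measurable_pi_lambda _ fun i => (measurable_lower a b).comp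
    (((measurable_pi_apply i).comp measurable_fst).prodMk ((measurable_pi_apply i).comp measurable_snd))
  -- lower bound by Fubini
  have hlow : ENNReal.ofReal (1 / 4) ≤ (μ.prod ρ') (Φ ⁻¹' A) := by
    rw [Measure.prod_apply (hΦ hA)]
    calc ENNReal.ofReal (1 / 4) ≤ ∫⁻ _x in A₀, ENNReal.ofReal (3 / 4) ∂μ := by
          rw [setLIntegral_const, ← ofReal_measureReal (μ := μ) (s := A₀),
            ← ENNReal.ofReal_mul (by norm_num)]
          exact ENNReal.ofReal_le_ofReal (by linarith)
      _ ≤ ∫⁻ x in A₀, ρ' (Prod.mk x ⁻¹' (Φ ⁻¹' A)) ∂μ := by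
          refine setLIntegral_mono' hA₀ fun x hx => ?_
          obtain ⟨J, hJ, -, hJA⟩ := hyp x hx
          let Q : (ι → ℝ) → ℝ≥0∞ := fun y => ∏ i, if i ∈ J then (if y i ≤ b then 2⁻¹ else 1) else 1
          have hQm : Measurable Q := Finset.measurable_prod _ fun i _ => by
            by_cases hi : i ∈ J <;> simp only [hi, if_true, if_false]
            · exact Measurable.ite (measurableSet_le (measurable_pi_apply i) measurable_const)
                measurable_const measurable_const
            · exact measurable_const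
          have hQ : ∀ y, Q y = 2⁻¹ ^ (J.filter fun i => y i ≤ b).card := fun y => by
            simp only [Q]
            rw [Finset.prod_ite_mem, Finset.univ_inter, Finset.prod_ite, Finset.prod_const,
              Finset.prod_const_one, mul_one]
          have hint : ∫⁻ y, Q y ∂ρ' ≤ ENNReal.ofReal (exp (-ε / 2 * M)) := by
            simp only [Q, ρ']
            rw [lintegral_pi_prod (prop' G a b ε) (f := fun i z => if i ∈ J then (if z ≤ b then 2⁻¹ else 1) else 1)]
            · calc ∏ i, ∫⁻ z, (if i ∈ J then (if z ≤ b then 2⁻¹ else 1) else 1) ∂prop' G a b ε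
                  ≤ ∏ i, if i ∈ J then ENNReal.ofReal (exp (-ε / 2)) else 1 :=
                    Finset.prod_le_prod' fun i _ => by
                      by_cases hi : i ∈ J <;> simp [hi, lintegral_two_pow hab hb h0 h1]
                _ = ENNReal.ofReal (exp (-ε / 2)) ^ J.card := by
                    rw [Finset.prod_ite_mem, Finset.univ_inter, Finset.prod_const]
                _ ≤ _ := by
                    rw [← ENNReal.ofReal_pow (exp_pos _).le, ← exp_nat_mul]
                    refine ENNReal.ofReal_le_ofReal (exp_le_exp.2 ?_)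
                    have : (M : ℝ) ≤ J.card := by exact_mod_cast hJ
                    nlinarith
            · intro i
              by_cases hi : i ∈ J <;> simp only [hi, if_true, if_false]
              · exact Measurable.ite measurableSet_Iic measurable_const measurable_const
              · exact measurable_const
          have hsmall : ρ' {y | (2⁻¹ : ℝ≥0∞) ^ h ≤ Q y} ≤ ENNReal.ofReal (1 / 4) := by
            have hm := (mul_meas_ge_le_lintegral (μ := ρ') hQm ((2⁻¹ : ℝ≥0∞) ^ h)).trans hint
            have h2 : (2⁻¹ : ℝ≥0∞) ^ h = ENNReal.ofReal (exp (-(h * log 2))) := by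
              rw [← ENNReal.ofReal_ofNat, ← ENNReal.ofReal_inv_of_pos two_pos,
                ← ENNReal.ofReal_pow (by norm_num), ← neg_mul, neg_mul_comm, exp_nat_mul, exp_neg,
                exp_log two_pos]
            rw [h2] at hm ⊢
            rw [mul_comm] at hm
            refine (ENNReal.le_div_iff_mul_le (Or.inl (by simp [exp_pos]))
              (Or.inl ENNReal.ofReal_ne_top)).2 hm |>.trans ?_
            rw [← ENNReal.ofReal_div_of_pos (exp_pos _), ← exp_sub]
            refine ENNReal.ofReal_le_ofReal ?_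
            rw [le_div_iff₀ (by norm_num)]
            have h4 : exp (-2 : ℝ) * 4 ≤ 1 := by
              have h5 : exp (-2 : ℝ) * exp 2 = 1 := by rw [← exp_add]; simp
              have h6 := quadratic_le_exp_of_nonneg (show (0 : ℝ) ≤ 2 by norm_num)
              nlinarith [exp_pos (-2 : ℝ)]
            refine le_trans ?_ h4
            gcongr
            linarith
          have hm' : MeasurableSet {y | (2⁻¹ : ℝ≥0∞) ^ h ≤ Q y} := measurableSet_le measurable_const hQm
          calc ENNReal.ofReal (3 / 4) ≤ ρ' {y | (2⁻¹ : ℝ≥0∞) ^ h ≤ Q y}ᶜ := by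
                rw [prob_compl_eq_one_sub hm']
                refine le_trans (le_of_eq ?_) (tsub_le_tsub_left hsmall _)
                rw [← ENNReal.ofReal_one, ← ENNReal.ofReal_sub _ (by norm_num)]; norm_num
            _ ≤ _ := measure_mono fun y hy => hJA y (by
                by_contra hlt
                push Not at hlt
                exact hy (by
                  simp only [Set.mem_setOf_eq, hQ]
                  exact pow_le_pow_right_of_le_one' (by simp) hlt.le))
      _ ≤ ∫⁻ x, ρ' (Prod.mk x ⁻¹' (Φ ⁻¹' A)) ∂μ := setLIntegral_le_lintegral _ _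
  -- upper bound by the density
  have : IsFiniteMeasure (G.withDensity fun x => ENNReal.ofReal (dens G a b ε x)) := by
    rw [← map_lower hab hb h0 h1]; infer_instance
  have hmd : Measurable fun x => ENNReal.ofReal (dens G a b ε x) :=
    ENNReal.measurable_ofReal.comp measurable_dens
  have hmap : (μ.prod ρ') (Φ ⁻¹' A) =
      ∫⁻ x in A, ∏ i, ENNReal.ofReal (dens G a b ε (x i)) ∂μ := by
    have e := measurePreserving_arrowProdEquivProdArrow ℝ ℝ ι (fun _ => G) fun _ => prop' G a b ε
    have e2 : (μ.prod ρ').map Φ =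
        Measure.pi fun _ : ι => G.withDensity fun x => ENNReal.ofReal (dens G a b ε x) := by
      rw [← e.map_eq, Measure.map_map hΦ e.measurable, ← map_lower hab hb h0 h1]
      exact Measure.pi_map_pi fun _ => (measurable_lower a b).aemeasurable
    rw [← Measure.map_apply hΦ hA, e2, pi_withDensity G hmd, withDensity_apply _ hA]
  have hupper : ∫⁻ x in A, ∏ i, ENNReal.ofReal (dens G a b ε (x i)) ∂μ ≤
      ENNReal.ofReal (2 * C * μ.real A + 1 / 8) := by
    set F : (ι → ℝ) → ℝ≥0∞ := fun x => ∏ i, ENNReal.ofReal (dens G a b ε (x i))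
    have hF : Measurable F := Finset.measurable_prod _ fun i _ => hmd.comp (measurable_pi_apply i)
    have hpt : ∀ x, F x ≤ ENNReal.ofReal (2 * C) + ENNReal.ofReal (1 / (8 * C)) * F x ^ 2 := fun x => by
      have hFx : F x = ENNReal.ofReal (∏ i, dens G a b ε (x i)) :=
        (ENNReal.ofReal_prod_of_nonneg fun i _ => dens_nonneg h0 h1 _).symm
      rw [hFx, ← ENNReal.ofReal_pow (Finset.prod_nonneg fun i _ => dens_nonneg h0 h1 _),
        ← ENNReal.ofReal_mul (by positivity), ← ENNReal.ofReal_add (by positivity) (by positivity)]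
      refine ENNReal.ofReal_le_ofReal ?_
      set z := ∏ i, dens G a b ε (x i)
      have : 0 ≤ (z - 4 * C) ^ 2 / (8 * C) := by positivity
      have e : (z - 4 * C) ^ 2 / (8 * C) = 2 * C + 1 / (8 * C) * z ^ 2 - z := by field_simp; ring
      linarith
    calc ∫⁻ x in A, F x ∂μ
        ≤ ∫⁻ x in A, (ENNReal.ofReal (2 * C) + ENNReal.ofReal (1 / (8 * C)) * F x ^ 2) ∂μ :=
          lintegral_mono hpt
      _ ≤ ENNReal.ofReal (2 * C) * μ A + ENNReal.ofReal (1 / (8 * C)) * ∫⁻ x, F x ^ 2 ∂μ := by
          rw [lintegral_add_left measurable_const, setLIntegral_const,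
            lintegral_const_mul _ (hF.pow_const 2)]
          exact add_le_add le_rfl (mul_le_mul' le_rfl (setLIntegral_le_lintegral _ _))
      _ ≤ ENNReal.ofReal (2 * C) * μ A + ENNReal.ofReal (1 / (8 * C)) * ENNReal.ofReal C := by
          gcongr
          simp only [F, ← Finset.prod_pow]
          rw [lintegral_pi_prod G fun _ => hmd.pow_const 2, Finset.prod_const, Finset.card_univ,
            hCdef, ENNReal.ofReal_pow (exp_pos _).le]
          exact pow_le_pow_left' (lintegral_dens_sq hab hb h0 h1) _
      _ = _ := by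
          rw [← ofReal_measureReal (μ := μ) (s := A), ← ENNReal.ofReal_mul (by positivity),
            ← ENNReal.ofReal_mul (by positivity),
            ← ENNReal.ofReal_add (mul_nonneg (by positivity) measureReal_nonneg) (by positivity)]
          congr 2
          field_simp
  have hfin := (ENNReal.ofReal_le_ofReal_iff (by positivity)).1 ((hlow.trans hmap.le).trans hupper)
  rw [div_le_iff₀ (by positivity)]
  linarith

end Vale.Agent.P158.Power
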